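import Vale.Agent.P004N.H503.Iface

/-!
# P004N.H65: U9, the newform attached to a quadratic twist
-/

open UpperHalfPlane CongruenceSubgroup
open scoped MatrixGroups ModularForm Manifold Real

namespace P004N.H65

/-! ### linear combinations -/

theorem s2_comb {M : ℕ} {F G : ℍ → ℂ} (x y : ℂ) (hF : S2 M F) (hG : S2 M G) :
    S2 M (fun z => x * F z + y * G z) := by
  have e : (fun z => x * F z + y * G z) = x • F + y • G := by
    ext z; simp [smul_eq_mul]
  rw [e]
  refine ⟨?_, ?_, ?_⟩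
  · exact (hF.holo.const_smul x).add (hG.holo.const_smul y)
  · intro γ hγ
    rw [SlashAction.add_slash, ModularForm.SL_smul_slash, ModularForm.SL_smul_slash,
      hF.slash γ hγ, hG.slash γ hγ]
  · intro γ
    rw [SlashAction.add_slash, ModularForm.SL_smul_slash, ModularForm.SL_smul_slash]
    exact Filter.ZeroAtFilter.add (Filter.ZeroAtFilter.smul x (hF.zero γ))
      (Filter.ZeroAtFilter.smul y (hG.zero γ))

theorem qe_comb {F G : ℍ → ℂ} {c d : ℕ → ℂ} (x y : ℂ) (hF : QE F c) (hG : QE G d) :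
    QE (fun z => x * F z + y * G z) (fun n => x * c n + y * d n) := by
  intro z
  have h1 := (hF z).mul_left x
  have h2 := (hG z).mul_left y
  have h3 := h1.add h2
  have e : (fun n : ℕ => (x * c n + y * d n) * Complex.exp (2 * π * Complex.I * n * z)) =
      fun n : ℕ => x * (c n * Complex.exp (2 * π * Complex.I * n * z)) +
        y * (d n * Complex.exp (2 * π * Complex.I * n * z)) := by
    funext n; ring
  show HasSum (fun n : ℕ => (x * c n + y * d n) * Complex.exp (2 * π * Complex.I * n * z)) _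
  rw [e]
  exact h3

theorem qe_zero_fun {F : ℍ → ℂ} {c : ℕ → ℂ} (hF : QE F c) (hc : ∀ n, c n = 0) (z : ℍ) :
    F z = 0 := by
  have h := hF z
  have e : (fun n : ℕ => c n * Complex.exp (2 * π * Complex.I * n * z)) = fun _ => 0 := by
    funext n; rw [hc n, zero_mul]
  rw [e] at h
  exact h.unique hasSum_zero

theorem qe_eq_fun {F G : ℍ → ℂ} {c d : ℕ → ℂ} (hF : QE F c) (hG : QE G d) (hc : ∀ n, c n = d n)
    (z : ℍ) : F z = G z := by
  have h := hF z
  have e : (fun n : ℕ => c n * Complex.exp (2 * π * Complex.I * n * z)) =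
      fun n : ℕ => d n * Complex.exp (2 * π * Complex.I * n * z) := by
    funext n; rw [hc n]
  rw [e] at h
  exact h.unique (hG z)

theorem qe_congr {F : ℍ → ℂ} {c d : ℕ → ℂ} (hF : QE F c) (hc : ∀ n, c n = d n) : QE F d := by
  have : c = d := funext hc
  rwa [this] at hF

theorem coeff_zero_of_fun (hQEu : StQEu) {F : ℍ → ℂ} {c : ℕ → ℂ} (hF : QE F c)
    (h0 : ∀ z, F z = 0) (n : ℕ) : c n = 0 := by
  have hz : QE F (fun _ => 0) := by
    intro z
    rw [h0 z]
    simp only [zero_mul]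
    exact hasSum_zero
  have := hQEu F c (fun _ => 0) hF hz
  rw [this]

/-! ### the Hecke relation -/

/-- Hecke relation at `q` with eigenvalue `l` -/
def HR (q : ℕ) (l : ℂ) (c : ℕ → ℂ) : Prop :=
  ∀ n, c (q * n) + (if q ∣ n then (q : ℂ) * c (n / q) else 0) = l * c n

theorem hr_comb {q : ℕ} {l : ℂ} {c d : ℕ → ℂ} (x y : ℂ) (hc : HR q l c) (hd : HR q l d) :
    HR q l (fun n => x * c n + y * d n) := by
  intro n
  have h1 := hc n
  have h2 := hd n
  by_cases h : q ∣ n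
  · simp only [h, if_true] at *
    linear_combination x * h1 + y * h2
  · simp only [h, if_false] at *
    linear_combination x * h1 + y * h2

theorem hr_congr {q : ℕ} {l : ℂ} {c d : ℕ → ℂ} (hc : HR q l c) (h : ∀ n, c n = d n) :
    HR q l d := by
  have : c = d := funext h
  rwa [this] at hc

theorem hr_U {q p : ℕ} {l : ℂ} {c : ℕ → ℂ} (hq : q.Prime) (hp : p.Prime) (hpq : p ≠ q)
    (hc : HR q l c) : HR q l (fun n => c (p * n)) := by
  intro n
  have h := hc (p * n)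
  have hcop : Nat.Coprime q p := (Nat.coprime_primes hq hp).2 (Ne.symm hpq)
  by_cases hn : q ∣ n
  · obtain ⟨k, rfl⟩ := hn
    have e1 : p * (q * k) / q = p * k := by
      rw [Nat.mul_left_comm, Nat.mul_div_cancel_left _ hq.pos]
    have e2 : q * k / q = k := Nat.mul_div_cancel_left _ hq.pos
    rw [if_pos (Dvd.dvd.mul_left (dvd_mul_right q k) p), e1] at h
    rw [if_pos (dvd_mul_right q k), e2]
    beta_reduce
    rw [Nat.mul_left_comm p q]
    exact h
  · have hn' : ¬ q ∣ p * n := fun h' => hn (hcop.dvd_of_dvd_mul_left h')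
    rw [if_neg hn'] at h
    rw [if_neg hn]
    beta_reduce
    rw [Nat.mul_left_comm p q]
    exact h

theorem hr_B {q p : ℕ} {l : ℂ} {c : ℕ → ℂ} (hq : q.Prime) (hp : p.Prime) (hpq : p ≠ q)
    (hc : HR q l c) : HR q l (fun n => if p ∣ n then c (n / p) else 0) := by
  intro n
  have hcop : Nat.Coprime p q := (Nat.coprime_primes hp hq).2 hpq
  by_cases hn : p ∣ n
  · obtain ⟨k, rfl⟩ := hn
    have h := hc k
    have e1 : q * (p * k) / p = q * k := by
      rw [Nat.mul_left_comm, Nat.mul_div_cancel_left _ hp.pos]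
    have e2 : p * k / p = k := Nat.mul_div_cancel_left _ hp.pos
    simp only [if_pos (Dvd.dvd.mul_left (dvd_mul_right p k) q), if_pos (dvd_mul_right p k), e1, e2]
    by_cases hk : q ∣ k
    · obtain ⟨j, rfl⟩ := hk
      have e3 : p * (q * j) / q = p * j := by
        rw [Nat.mul_left_comm, Nat.mul_div_cancel_left _ hq.pos]
      have e4 : p * j / p = j := Nat.mul_div_cancel_left _ hp.pos
      have e5 : q * j / q = j := Nat.mul_div_cancel_left _ hq.pos
      rw [if_pos (dvd_mul_right q j), e5] at h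
      rw [if_pos (Dvd.dvd.mul_left (dvd_mul_right q j) p), e3, if_pos (dvd_mul_right p j), e4]
      exact h
    · rw [if_neg hk] at h
      rw [if_neg (fun h' => hk (hcop.symm.dvd_of_dvd_mul_left h'))]
      exact h
  · have h1 : ¬ p ∣ q * n := fun h' => hn (hcop.dvd_of_dvd_mul_left h')
    have h2 : ¬ p ∣ n / q ∨ ¬ q ∣ n := by
      by_cases hqn : q ∣ n
      · left
        obtain ⟨k, rfl⟩ := hqn
        rw [Nat.mul_div_cancel_left _ hq.pos]
        exact fun h' => hn (Dvd.dvd.mul_left h' q)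
      · exact Or.inr hqn
    simp only [if_neg h1, if_neg hn]
    rcases h2 with h2 | h2
    · simp [if_neg h2]
    · simp [if_neg h2]

/-- `T_p` on coefficients -/
noncomputable def Tc (p : ℕ) (c : ℕ → ℂ) (n : ℕ) : ℂ :=
  c (p * n) + (if p ∣ n then (p : ℂ) * c (n / p) else 0)

theorem hr_T {q p : ℕ} {l : ℂ} {c : ℕ → ℂ} (hq : q.Prime) (hp : p.Prime) (hpq : p ≠ q)
    (hc : HR q l c) : HR q l (Tc p c) := by
  have h := hr_comb 1 (p : ℂ) (hr_U hq hp hpq hc) (hr_B hq hp hpq hc)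
  refine hr_congr h ?_
  intro n
  unfold Tc
  by_cases hn : p ∣ n
  · simp [hn]
  · simp [hn]

/-- `T_p` commutes with the relations `c (q n) = l c n` -/
theorem ur_T {q p : ℕ} {l : ℂ} {c : ℕ → ℂ} (hq : q.Prime) (hp : p.Prime) (hpq : p ≠ q)
    (hc : ∀ n, c (q * n) = l * c n) (n : ℕ) : Tc p c (q * n) = l * Tc p c n := by
  have hcop : Nat.Coprime p q := (Nat.coprime_primes hp hq).2 hpq
  unfold Tc
  rw [Nat.mul_left_comm p q n, hc (p * n)]
  by_cases hn : p ∣ n
  · obtain ⟨k, rfl⟩ := hn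
    have e1 : q * (p * k) / p = q * k := by
      rw [Nat.mul_left_comm, Nat.mul_div_cancel_left _ hp.pos]
    have e2 : p * k / p = k := Nat.mul_div_cancel_left _ hp.pos
    rw [if_pos (Dvd.dvd.mul_left (dvd_mul_right p k) q), if_pos (dvd_mul_right p k), e1, e2, hc k]
    ring
  · have h1 : ¬ p ∣ q * n := fun h' => hn (hcop.dvd_of_dvd_mul_left h')
    rw [if_neg h1, if_neg hn]
    ring

/-! ### the eigenspaces -/

/-- `F = ∑ c n q^n` is a cusp form of level `M` with eigenvalues `lam q`, `q ∤ S` -/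
structure VV (S : ℕ) (lam : ℕ → ℝ) (M : ℕ) (F : ℍ → ℂ) (c : ℕ → ℂ) : Prop where
  s2 : S2 M F
  qe : QE F c
  hr : ∀ q, q.Prime → ¬ q ∣ S → HR q (lam q) c

theorem VV.comb {S : ℕ} {lam : ℕ → ℝ} {M : ℕ} {F G : ℍ → ℂ} {c d : ℕ → ℂ} (x y : ℂ)
    (hF : VV S lam M F c) (hG : VV S lam M G d) :
    VV S lam M (fun z => x * F z + y * G z) (fun n => x * c n + y * d n) :=
  ⟨s2_comb x y hF.s2 hG.s2, qe_comb x y hF.qe hG.qe,
    fun q hq hqS => hr_comb x y (hF.hr q hq hqS) (hG.hr q hq hqS)⟩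

/-- the eigenspace at a minimal level: no eigenforms at proper divisors -/
structure Min (S : ℕ) (lam : ℕ → ℝ) (M : ℕ) : Prop where
  pos : 0 < M
  primes : ∀ p, p.Prime → p ∣ M → p ∣ S
  min : ∀ (M' : ℕ) (F : ℍ → ℂ) (c : ℕ → ℂ), 0 < M' → M' ∣ M → M' < M → VV S lam M' F c →
    ∀ n, c n = 0

theorem Min.sq {S : ℕ} {lam : ℕ → ℝ} {M : ℕ} (hUp : StUp) (hM : Min S lam M) {p : ℕ}
    (hp : p.Prime) (hpM : p ^ 2 ∣ M) {F : ℍ → ℂ} {c : ℕ → ℂ} (hF : VV S lam M F c) (n : ℕ) :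
    c (p * n) = 0 := by
  obtain ⟨k, hk⟩ := hpM
  have hkpos : 0 < k := by
    rcases Nat.eq_zero_or_pos k with h | h
    · rw [h, mul_zero] at hk
      exact absurd hk hM.pos.ne'
    · exact h
  have hM' : M = p * (p * k) := by rw [hk]; ring
  have hpos' : 0 < p * k := Nat.mul_pos hp.pos hkpos
  obtain ⟨G, hG, hGq⟩ := hUp M (p * k) p F c hM.pos hp (dvd_mul_right p k)
    (by rw [hM']) hpos' hF.s2 hF.qe
  have hpS : p ∣ S := hM.primes p hp (by rw [hM']; exact dvd_mul_right _ _)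
  refine hM.min (p * k) G (fun n => c (p * n)) hpos' (by rw [hM']; exact dvd_mul_left _ _) ?_
    ⟨hG, hGq, ?_⟩ n
  · rw [hM']
    have := hp.one_lt
    nlinarith
  · intro q hq hqS
    refine hr_U hq hp ?_ (hF.hr q hq hqS)
    rintro rfl
    exact hqS hpS

theorem Min.exact {S : ℕ} {lam : ℕ → ℝ} {M : ℕ} (hWQ : StWQ) (hTr : StTr) (hM : Min S lam M)
    {p : ℕ} (hp : p.Prime) (hpM : p ∣ M) (hpM2 : ¬ p ^ 2 ∣ M) {F : ℍ → ℂ} {c : ℕ → ℂ}
    (hF : VV S lam M F c) :
    ∃ (G : ℍ → ℂ) (c' : ℕ → ℂ), VV S lam M G c' ∧ ALs M p F G ∧ ALs M p G F ∧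
      (∀ n, c n = - c' (p * n)) ∧ (∀ n, c' n = - c (p * n)) := by
  obtain ⟨L, rfl⟩ := hpM
  have hpL : ¬ p ∣ L := by
    intro h
    apply hpM2
    rw [pow_two]
    exact mul_dvd_mul_left p h
  have hcop : p.Coprime L := (Nat.Prime.coprime_iff_not_dvd hp).2 hpL
  have hLpos : 0 < L := by
    rcases Nat.eq_zero_or_pos L with h' | h'
    · have := hM.pos
      rw [h', mul_zero] at this
      exact absurd this (lt_irrefl 0)
    · exact h'
  obtain ⟨G, c', hG, hGq, hFG, hGF, hcomm⟩ := hWQ (p * L) p L hM.pos rfl hcop F c hF.s2 hF.qe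
  have hpS : p ∣ S := hM.primes p hp (dvd_mul_right _ _)
  have hGV : VV S lam (p * L) G c' := by
    refine ⟨hG, hGq, ?_⟩
    intro q hq hqS
    refine hcomm q (lam q) hq ?_ (hF.hr q hq hqS)
    intro hqM
    exact hqS (hM.primes q hq hqM)
  have hlt : L < p * L := by
    have := hp.one_lt
    nlinarith
  have key : ∀ (F G : ℍ → ℂ) (c c' : ℕ → ℂ), VV S lam (p * L) F c → VV S lam (p * L) G c' →
      ALs (p * L) p F G → ∀ n, c n = - c' (p * n) := by
    intro F G c c' hF hG hFG n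
    obtain ⟨H, hH, hHq⟩ := hTr L p F G c c' hLpos hp hpL hF.s2 hF.qe hFG hG.qe
    have h0 := hM.min L H (fun n => c n + c' (p * n)) hLpos (dvd_mul_left _ _) hlt
      ⟨hH, hHq, ?_⟩ n
    · linear_combination h0
    · intro q hq hqS
      have hpq : p ≠ q := by
        rintro rfl
        exact hqS hpS
      have h1 := hr_comb 1 1 (hF.hr q hq hqS) (hr_U hq hp hpq (hG.hr q hq hqS))
      refine hr_congr h1 ?_
      intro n
      ring
  exact ⟨G, c', hGV, hFG, hGF, key F G c c' hF hGV hFG, key G F c' c hGV hF hGF⟩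


/-! ### a common sign vector -/

theorem Min.signs {S : ℕ} {lam : ℕ → ℝ} {M : ℕ} (hWQ : StWQ) (hTr : StTr) (hM : Min S lam M)
    {F₀ : ℍ → ℂ} {c₀ : ℕ → ℂ} (hF₀ : VV S lam M F₀ c₀) (hne : ∃ n, c₀ n ≠ 0) (T : Finset ℕ)
    (hT : ∀ p ∈ T, p.Prime ∧ p ∣ M ∧ ¬ p ^ 2 ∣ M) :
    ∃ (e : ℕ → ℝ) (F : ℍ → ℂ) (c : ℕ → ℂ), VV S lam M F c ∧ (∃ n, c n ≠ 0) ∧
      ∀ p ∈ T, (e p = 1 ∨ e p = -1) ∧ ∀ n, c (p * n) = e p * c n := by
  induction T using Finset.induction_on with
  | empty => exact ⟨fun _ => 0, F₀, c₀, hF₀, hne, by simp⟩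
  | insert p T hpT ih =>
    obtain ⟨e, F, c, hF, hc, he⟩ := ih (fun q hq => hT q (Finset.mem_insert_of_mem hq))
    obtain ⟨hp, hpM, hpM2⟩ := hT p (Finset.mem_insert_self p T)
    obtain ⟨G, c', hG, -, -, h1, h2⟩ := hM.exact hWQ hTr hp hpM hpM2 hF
    by_cases hall : ∀ n, c (p * n) = - c n
    · refine ⟨Function.update e p (-1), F, c, hF, hc, ?_⟩
      intro q hq
      rcases Finset.mem_insert.1 hq with rfl | hq'
      · refine ⟨Or.inr (by simp), ?_⟩
        intro n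
        rw [hall n]
        simp
      · have hqp : q ≠ p := by rintro rfl; exact hpT hq'
        rw [Function.update_of_ne hqp]
        exact he q hq'
    · push Not at hall
      obtain ⟨n₀, hn₀⟩ := hall
      refine ⟨Function.update e p 1, _, _, hF.comb 1 (-1) hG, ⟨n₀, ?_⟩, ?_⟩
      · intro h
        apply hn₀
        rw [h2 n₀] at h
        linear_combination h
      · intro q hq
        rcases Finset.mem_insert.1 hq with rfl | hq'
        · refine ⟨Or.inl (by simp), ?_⟩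
          intro n
          have a1 := h1 n
          have a2 := h2 n
          simp only [Function.update_self, Complex.ofReal_one]
          linear_combination a2 - a1
        · have hqp : q ≠ p := by rintro rfl; exact hpT hq'
          rw [Function.update_of_ne hqp]
          refine ⟨(he q hq').1, ?_⟩
          intro n
          have a1 := (he q hq').2 n
          have a2 := (he q hq').2 (p * n)
          have a3 : c' (q * n) = e q * c' n := by
            rw [h2 n, h2 (q * n), Nat.mul_left_comm p q n, a2]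
            ring
          rw [a1, a3]
          ring

/-- forms in the eigenspace with given eigenvalues of all `U_p`, `p ∣ M` -/
structure V1 (S : ℕ) (lam e : ℕ → ℝ) (M : ℕ) (F : ℍ → ℂ) (c : ℕ → ℂ) : Prop where
  v : VV S lam M F c
  u : ∀ p, p.Prime → p ∣ M → ∀ n, c (p * n) = e p * c n

theorem V1.comb {S : ℕ} {lam e : ℕ → ℝ} {M : ℕ} {F G : ℍ → ℂ} {c d : ℕ → ℂ} (x y : ℂ)
    (hF : V1 S lam e M F c) (hG : V1 S lam e M G d) :
    V1 S lam e M (fun z => x * F z + y * G z) (fun n => x * c n + y * d n) := by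
  refine ⟨hF.v.comb x y hG.v, ?_⟩
  intro p hp hpM n
  have h1 := hF.u p hp hpM n
  have h2 := hG.u p hp hpM n
  linear_combination x * h1 + y * h2

theorem Min.exV1 {S : ℕ} {lam : ℕ → ℝ} {M : ℕ} (hUp : StUp) (hWQ : StWQ) (hTr : StTr)
    (hM : Min S lam M)
    {F₀ : ℍ → ℂ} {c₀ : ℕ → ℂ} (hF₀ : VV S lam M F₀ c₀) (hne : ∃ n, c₀ n ≠ 0) :
    ∃ (e : ℕ → ℝ) (F : ℍ → ℂ) (c : ℕ → ℂ), V1 S lam e M F c ∧ (∃ n, c n ≠ 0) ∧
      (∀ p, p.Prime → p ∣ M → ¬ p ^ 2 ∣ M → e p = 1 ∨ e p = -1) ∧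
      (∀ p, p.Prime → p ^ 2 ∣ M → e p = 0) := by
  obtain ⟨e, F, c, hF, hc, he⟩ := hM.signs hWQ hTr hF₀ hne
    (M.primeFactors.filter (fun p => ¬ p ^ 2 ∣ M)) (by
      intro p hp
      rw [Finset.mem_filter, Nat.mem_primeFactors] at hp
      exact ⟨hp.1.1, hp.1.2.1, hp.2⟩)
  have hmem : ∀ p, p.Prime → p ∣ M → ¬ p ^ 2 ∣ M →
      p ∈ M.primeFactors.filter (fun p => ¬ p ^ 2 ∣ M) := by
    intro p hp hpM hpM2
    rw [Finset.mem_filter, Nat.mem_primeFactors]
    exact ⟨⟨hp, hpM, hM.pos.ne'⟩, hpM2⟩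
  refine ⟨fun p => if p ^ 2 ∣ M then 0 else e p, F, c, ⟨hF, ?_⟩, hc, ?_, ?_⟩
  · intro p hp hpM n
    by_cases h : p ^ 2 ∣ M
    · simp only [if_pos h, Complex.ofReal_zero, zero_mul]
      exact hM.sq hUp hp h hF n
    · simp only [if_neg h]
      exact (he p (hmem p hp hpM h)).2 n
  · intro p hp hpM hpM2
    simp only [if_neg hpM2]
    exact (he p (hmem p hp hpM hpM2)).1
  · intro p _ hpM2
    simp only [if_pos hpM2]

/-! ### the key lemma -/

theorem coeff0 (hQEx : StQEx) (hQEu : StQEu) {N : ℕ} {F : ℍ → ℂ} {c : ℕ → ℂ} (hN : 0 < N)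
    (hF : S2 N F) (hc : QE F c) : c 0 = 0 := by
  obtain ⟨d, hd, hd0⟩ := hQEx N F hN hF
  rw [hQEu F c d hc hd]
  exact hd0

theorem V1.key {S : ℕ} {lam e : ℕ → ℝ} {M : ℕ} (hS : 0 < S) (hQEx : StQEx) (hQEu : StQEu)
    (hSupp : StSupp) (hM : 0 < M) {F : ℍ → ℂ} {c : ℕ → ℂ}
    (hF : V1 S lam e M F c) (h1 : c 1 = 0) : ∀ n, c n = 0 := by
  classical
  set R : ℕ := ∏ p ∈ S.primeFactors.filter (fun p => ¬ p ∣ M), p with hR
  have hRpos : 0 < R := by
    rw [hR]
    apply Finset.prod_pos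
    intro p hp
    rw [Finset.mem_filter, Nat.mem_primeFactors] at hp
    exact hp.1.1.pos
  have hcop : M.Coprime R := by
    rw [hR]
    apply Nat.Coprime.prod_right
    intro p hp
    rw [Finset.mem_filter, Nat.mem_primeFactors] at hp
    exact ((Nat.Prime.coprime_iff_not_dvd hp.1.1).2 hp.2).symm
  have h0 : c 0 = 0 := coeff0 hQEx hQEu hM hF.v.s2 hF.v.qe
  have hprime : ∀ p n : ℕ, p.Prime → p ∣ n → n.Coprime R → p ∣ M ∨ ¬ p ∣ S := by
    intro p n hp hpn hn
    by_contra hcon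
    push Not at hcon
    obtain ⟨hpM, hpS⟩ := hcon
    have hpR : p ∣ R := by
      rw [hR]
      apply Finset.dvd_prod_of_mem
      rw [Finset.mem_filter, Nat.mem_primeFactors]
      exact ⟨⟨hp, hpS, hS.ne'⟩, hpM⟩
    have := Nat.dvd_gcd hpn hpR
    rw [hn] at this
    exact hp.one_lt.ne' (Nat.dvd_one.1 this)
  have hall : ∀ n : ℕ, n.Coprime R → c n = 0 := by
    intro n
    induction n using Nat.strong_induction_on with
    | _ n ih =>
      intro hn
      rcases Nat.eq_zero_or_pos n with rfl | hnpos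
      · exact h0
      by_cases hn1 : n = 1
      · rw [hn1]; exact h1
      obtain ⟨p, hp, hpn⟩ := Nat.exists_prime_and_dvd hn1
      obtain ⟨k, rfl⟩ := hpn
      have hkpos : 0 < k := Nat.pos_of_ne_zero (by rintro rfl; simp at hnpos)
      have hklt : k < p * k := by
        have := hp.one_lt
        nlinarith
      have hkc : k.Coprime R := Nat.Coprime.coprime_dvd_left (dvd_mul_left k p) hn
      have hck : c k = 0 := ih k hklt hkc
      rcases hprime p (p * k) hp (dvd_mul_right p k) hn with hpM | hpS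
      · rw [hF.u p hp hpM k, hck, mul_zero]
      · have h := hF.v.hr p hp hpS k
        rw [hck, mul_zero] at h
        by_cases hpk : p ∣ k
        · obtain ⟨j, rfl⟩ := hpk
          have hjc : j.Coprime R := Nat.Coprime.coprime_dvd_left (dvd_mul_left j p) hkc
          have hjpos : 0 < j := Nat.pos_of_ne_zero (by rintro rfl; simp at hkpos)
          have hjlt : j < p * (p * j) := by
            have := hp.one_lt
            nlinarith
          rw [if_pos (dvd_mul_right p j), Nat.mul_div_cancel_left _ hp.pos, ih j hjlt hjc,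
            mul_zero, add_zero] at h
          exact h
        · rw [if_neg hpk, add_zero] at h
          exact h
  have hFz := hSupp M R F c hM hRpos hcop hF.v.s2 hF.v.qe hall
  exact coeff_zero_of_fun hQEu hF.v.qe hFz

/-! ### scaling Atkin-Lehner relations -/

theorem als_smul {N Q : ℕ} {F G : ℍ → ℂ} (x : ℂ) (h : ALs N Q F G) :
    ALs N Q (fun z => x * F z) (fun z => x * G z) := by
  intro a b c d hdet τ τ' hτ
  have := h a b c d hdet τ τ' hτ
  simp only
  rw [this]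
  ring

theorem v1_unique {S : ℕ} {lam e : ℕ → ℝ} {M : ℕ} (hS : 0 < S) (hQEx : StQEx) (hQEu : StQEu)
    (hSupp : StSupp) (hM : 0 < M) {g G : ℍ → ℂ} {b d : ℕ → ℂ}
    (hg : V1 S lam e M g b) (hb : b 1 = 1) (hG : V1 S lam e M G d) :
    (∀ n, d n = d 1 * b n) ∧ ∀ z, G z = d 1 * g z := by
  have h := hG.comb 1 (-(d 1)) hg
  have h1 := h.key hS hQEx hQEu hSupp hM (by rw [hb]; ring)
  refine ⟨fun n => ?_, fun z => ?_⟩
  · linear_combination h1 n
  · have := qe_zero_fun h.v.qe h1 z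
    linear_combination this

/-- the newform of an eigenvalue system -/
theorem coreP (hQEx : StQEx) (hQEu : StQEu) (hConj : StConj) (hUp : StUp) (hTp : StTp)
    (hWQ : StWQ) (hWu : StWu) (hWcm : StWcm) (hTr : StTr) (hSupp : StSupp)
    (S : ℕ) (hS : 0 < S) (lam : ℕ → ℝ) (M₀ : ℕ) (hM₀ : 0 < M₀)
    (hM₀S : ∀ p : ℕ, p.Prime → p ∣ M₀ → p ∣ S) (F₀ : ℍ → ℂ) (c₀ : ℕ → ℂ)
    (hV : VV S lam M₀ F₀ c₀) (hne : ∃ n, c₀ n ≠ 0) :
    ∃ (M : ℕ) (g : ℍ → ℂ) (b : ℕ → ℝ) (ε : ℝ), NF M g b ε ∧ M ∣ M₀ ∧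
      (∀ q : ℕ, q.Prime → ¬ q ∣ S → b q = lam q) ∧
      ∀ p : ℕ, p.Prime → p ∣ M → ¬ p ^ 2 ∣ M → ALw M p g (-(b p)) := by
  classical
  have hex : ∃ M : ℕ, 0 < M ∧ M ∣ M₀ ∧ ∃ (F : ℍ → ℂ) (c : ℕ → ℂ), VV S lam M F c ∧
      ∃ n, c n ≠ 0 := ⟨M₀, hM₀, dvd_refl _, F₀, c₀, hV, hne⟩
  obtain ⟨hMpos, hMdvd, F₁, c₁, hF₁, hne₁⟩ := Nat.find_spec hex
  have hfmin := fun m => @Nat.find_min _ _ hex m
  set M : ℕ := Nat.find hex with hMdef
  have hM : Min S lam M := by
    refine ⟨hMpos, fun p hp hpM => hM₀S p hp (hpM.trans hMdvd), ?_⟩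
    intro M' F c hpos hdvd hlt hF
    by_contra hcon
    push Not at hcon
    exact hfmin M' hlt ⟨hpos, hdvd.trans hMdvd, F, c, hF, hcon⟩
  obtain ⟨e, F, c, hF, hc, he1, he2⟩ := hM.exV1 hUp hWQ hTr hF₁ hne₁
  have hc1 : c 1 ≠ 0 := by
    intro h
    obtain ⟨n, hn⟩ := hc
    exact hn (hF.key hS hQEx hQEu hSupp hMpos h n)
  -- normalise
  obtain ⟨g, bc, hg, hb1⟩ : ∃ (g : ℍ → ℂ) (bc : ℕ → ℂ), V1 S lam e M g bc ∧ bc 1 = 1 := by
    refine ⟨_, _, hF.comb (c 1)⁻¹ 0 hF, ?_⟩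
    rw [inv_mul_cancel₀ hc1]
    ring
  have huniq := fun (G : ℍ → ℂ) (d : ℕ → ℂ) (hG : V1 S lam e M G d) =>
    v1_unique hS hQEx hQEu hSupp hMpos hg hb1 hG
  -- real coefficients
  have hreal : ∀ n, ((bc n).re : ℂ) = bc n := by
    obtain ⟨G, hG, hGq⟩ := hConj M g bc hMpos hg.v.s2 hg.v.qe
    have hGV : V1 S lam e M G (fun n => (starRingEnd ℂ) (bc n)) := by
      refine ⟨⟨hG, hGq, ?_⟩, ?_⟩
      · intro q hq hqS n
        have h := congrArg (starRingEnd ℂ) (hg.v.hr q hq hqS n)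
        by_cases hqn : q ∣ n
        · rw [if_pos hqn] at h ⊢
          simpa using h
        · rw [if_neg hqn] at h ⊢
          simpa using h
      · intro p hp hpM n
        have h := congrArg (starRingEnd ℂ) (hg.u p hp hpM n)
        simpa using h
    intro n
    have h := (huniq G _ hGV).1 n
    simp only [hb1, map_one, one_mul] at h
    exact (Complex.conj_eq_iff_re.1 h)
  set b : ℕ → ℝ := fun n => (bc n).re with hbdef
  have hbb : ∀ n, (b n : ℂ) = bc n := hreal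
  have hb1' : b 1 = 1 := by
    have := hbb 1
    rw [hb1] at this
    exact_mod_cast this
  -- eigenvalues
  have heb : ∀ p, p.Prime → p ∣ M → e p = b p := by
    intro p hp hpM
    have h := hg.u p hp hpM 1
    rw [hb1, mul_one, mul_one, ← hbb p] at h
    exact_mod_cast h.symm
  have hlb : ∀ q, q.Prime → ¬ q ∣ S → b q = lam q := by
    intro q hq hqS
    have h := hg.v.hr q hq hqS 1
    have hq1 : ¬ q ∣ 1 := fun h' => hq.one_lt.ne' (Nat.dvd_one.1 h')
    rw [if_neg hq1, hb1, mul_one, mul_one, add_zero, ← hbb q] at h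
    exact_mod_cast h
  -- Fricke
  obtain ⟨G, c', hG, hGq, hgG, hGg, hcomm⟩ := hWQ M M 1 hMpos (mul_one M) (Nat.coprime_one_right M)
    g bc hg.v.s2 hg.v.qe
  have hGVV : VV S lam M G c' := by
    refine ⟨hG, hGq, ?_⟩
    intro q hq hqS
    exact hcomm q (lam q) hq (fun h => hqS (hM.primes q hq h)) (hg.v.hr q hq hqS)
  have hGV : V1 S lam e M G c' := by
    refine ⟨hGVV, ?_⟩
    intro p hp hpM n
    by_cases hp2 : p ^ 2 ∣ M
    · rw [hM.sq hUp hp hp2 hGVV n, he2 p hp hp2]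
      simp
    · obtain ⟨G1, d1, hG1, hgG1, -, -, hd1⟩ := hM.exact hWQ hTr hp hpM hp2 hg.v
      obtain ⟨K, k, hK, hGK, -, -, hk⟩ := hM.exact hWQ hTr hp hpM hp2 hGVV
      obtain ⟨L, hL⟩ := hpM
      have hpL : ¬ p ∣ L := by
        intro h
        apply hp2
        rw [hL, pow_two]
        exact mul_dvd_mul_left p h
      have hcop : p.Coprime L := (Nat.Prime.coprime_iff_not_dvd hp).2 hpL
      have hG1z : ∀ z, G1 z = -(e p : ℂ) * g z := by
        have hq : QE (fun z => -(e p : ℂ) * g z + 0 * g z)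
            (fun n => -(e p : ℂ) * bc n + 0 * bc n) := qe_comb _ _ hg.v.qe hg.v.qe
        intro z
        have := qe_eq_fun hG1.qe hq (by
          intro n
          rw [hd1 n, hg.u p hp (by rw [hL]; exact dvd_mul_right _ _) n]
          ring) z
        rw [this]
        ring
      have h1 : ALs M M G1 K := hWcm M p L hMpos hL.symm hcop g G1 G K hg.v.s2 hgG1 hgG hGK
      have h2 : ALs M M G1 (fun z => -(e p : ℂ) * G z) := by
        have h3 := als_smul (-(e p : ℂ)) hgG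
        have h4 : G1 = fun z => -(e p : ℂ) * g z := funext hG1z
        rw [h4]
        exact h3
      have hKz : K = fun z => -(e p : ℂ) * G z :=
        hWu M M 1 hMpos (mul_one M) (Nat.coprime_one_right M) G1 K _ h1 h2
      have hkq : k = fun n => -(e p : ℂ) * c' n + 0 * c' n := by
        refine hQEu K k _ hK.qe ?_
        have hq : QE (fun z => -(e p : ℂ) * G z + 0 * G z)
            (fun n => -(e p : ℂ) * c' n + 0 * c' n) := qe_comb _ _ hGq hGq
        have h5 : K = fun z => -(e p : ℂ) * G z + 0 * G z := by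
          rw [hKz]; funext z; ring
        rw [h5]
        exact hq
      have h6 := hk n
      rw [hkq] at h6
      simp only at h6
      linear_combination h6
  obtain ⟨hcκ, hGκ⟩ := huniq G c' hGV
  have hκ : c' 1 ^ 2 = 1 := by
    have h3 := als_smul (c' 1) hgG
    have h4 : (fun z => c' 1 * g z) = G := by funext z; rw [hGκ z]
    rw [h4] at h3
    have h5 : g = fun z => c' 1 * G z :=
      hWu M M 1 hMpos (mul_one M) (Nat.coprime_one_right M) G g _ hGg h3
    have h6 : bc = fun n => c' 1 * c' n + 0 * c' n := by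
      refine hQEu g bc _ hg.v.qe ?_
      have hq : QE (fun z => c' 1 * G z + 0 * G z)
          (fun n => c' 1 * c' n + 0 * c' n) := qe_comb _ _ hGq hGq
      have h7 : (fun z => c' 1 * G z + 0 * G z) = g := by
        have h8 : ∀ z, g z = c' 1 * G z := fun z => congrFun h5 z
        funext z
        rw [h8 z]
        ring
      rw [h7] at hq
      exact hq
    have h8 := congrFun h6 1
    simp only [hb1] at h8
    linear_combination -h8
  obtain ⟨ε, hε, hεκ⟩ : ∃ ε : ℝ, (ε = 1 ∨ ε = -1) ∧ (ε : ℂ) = c' 1 := by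
    have h : (c' 1 - 1) * (c' 1 + 1) = 0 := by linear_combination hκ
    rcases mul_eq_zero.1 h with h | h
    · exact ⟨1, Or.inl rfl, by push_cast; linear_combination -h⟩
    · exact ⟨-1, Or.inr rfl, by push_cast; linear_combination -h⟩
  -- Hecke operators at the good primes
  have hgoodC : ∀ p : ℕ, p.Prime → ¬ p ∣ M → ∀ n : ℕ,
      bc (p * n) + (if p ∣ n then (p : ℂ) * bc (n / p) else 0) = bc p * bc n := by
    intro p hp hpM n
    by_cases hpS : p ∣ S
    · obtain ⟨H, hH, hHq⟩ := hTp M p g bc hMpos hp hpM hg.v.s2 hg.v.qe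
      have hHV : V1 S lam e M H (Tc p bc) := by
        refine ⟨⟨hH, hHq, ?_⟩, ?_⟩
        · intro q hq hqS
          refine hr_T hq hp ?_ (hg.v.hr q hq hqS)
          rintro rfl
          exact hqS hpS
        · intro q hq hqM n
          refine ur_T hq hp ?_ (fun n => hg.u q hq hqM n) n
          rintro rfl
          exact hpM hqM
      have h := (huniq H _ hHV).1 n
      have hT1 : Tc p bc 1 = bc p := by
        unfold Tc
        have hp1 : ¬ p ∣ 1 := fun h' => hp.one_lt.ne' (Nat.dvd_one.1 h')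
        rw [if_neg hp1, mul_one, add_zero]
      rw [hT1] at h
      exact h
    · rw [hg.v.hr p hp hpS n, ← hlb p hp hpS, ← hbb p]
  refine ⟨M, g, b, ε, ⟨hMpos, hg.v.s2, qe_congr hg.v.qe (fun n => (hbb n).symm), ?_, hb1', ?_, ?_,
    ?_, ?_, hε, ?_⟩, hMdvd, hlb, ?_⟩
  · have := coeff0 hQEx hQEu hMpos hg.v.s2 hg.v.qe
    rw [hbdef]
    simp only [this, Complex.zero_re]
  · intro p hp hpM n
    have h := hgoodC p hp hpM n
    rw [← hbb p, ← hbb n, ← hbb (p * n), ← hbb (n / p)] at h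
    by_cases hpn : p ∣ n
    · rw [if_pos hpn] at h ⊢
      exact_mod_cast h
    · rw [if_neg hpn] at h ⊢
      exact_mod_cast h
  · intro p hp hpM n
    have h := hg.u p hp hpM n
    rw [← hbb n, ← hbb (p * n), heb p hp hpM] at h
    exact_mod_cast h
  · intro p hp hpM hp2
    rw [← heb p hp hpM]
    rcases he1 p hp hpM hp2 with h | h
    · rw [h]; norm_num
    · rw [h]; norm_num
  · intro p hp hp2
    rw [← heb p hp ((dvd_pow_self p two_ne_zero).trans hp2)]
    exact he2 p hp hp2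
  · intro x y z w hdet τ τ' hτ
    rw [hgG x y z w hdet τ τ' hτ, hGκ τ, hεκ]
    ring
  · intro p hp hpM hp2
    obtain ⟨G1, d1, hG1, hgG1, -, -, hd1⟩ := hM.exact hWQ hTr hp hpM hp2 hg.v
    have hG1z : ∀ z, G1 z = -(b p : ℂ) * g z := by
      have hq : QE (fun z => -(b p : ℂ) * g z + 0 * g z)
          (fun n => -(b p : ℂ) * bc n + 0 * bc n) := qe_comb _ _ hg.v.qe hg.v.qe
      intro z
      have := qe_eq_fun hG1.qe hq (by
        intro n
        rw [hd1 n, hg.u p hp hpM n, heb p hp hpM]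
        ring) z
      rw [this]
      ring
    intro x y z w hdet τ τ' hτ
    rw [hgG1 x y z w hdet τ τ' hτ, hG1z τ]
    push_cast
    ring

/-- the newform of an eigenvalue system -/
theorem core (hQEx : StQEx) (hQEu : StQEu) (hConj : StConj) (hUp : StUp) (hTp : StTp)
    (hWQ : StWQ) (hWu : StWu) (hWcm : StWcm) (hTr : StTr) (hSupp : StSupp)
    (S : ℕ) (hS : 0 < S) (lam : ℕ → ℝ) (M₀ : ℕ) (hM₀ : 0 < M₀)
    (hM₀S : ∀ p : ℕ, p.Prime → p ∣ M₀ → p ∣ S) (F₀ : ℍ → ℂ) (c₀ : ℕ → ℂ)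
    (hV : VV S lam M₀ F₀ c₀) (hne : ∃ n, c₀ n ≠ 0) :
    ∃ (M : ℕ) (g : ℍ → ℂ) (b : ℕ → ℝ) (ε : ℝ), NF M g b ε ∧ M ∣ M₀ ∧
      ∀ q : ℕ, q.Prime → ¬ q ∣ S → b q = lam q := by
  obtain ⟨M, g, b, ε, h1, h2, h3, -⟩ := coreP hQEx hQEu hConj hUp hTp hWQ hWu hWcm hTr hSupp
    S hS lam M₀ hM₀ hM₀S F₀ c₀ hV hne
  exact ⟨M, g, b, ε, h1, h2, h3⟩

/-- U9 with more output: the level divides `N m²` and the Atkin-Lehner eigenvalue at `p ‖ M` is
`-b p` -/
def StNewfP : Prop := ∀ (N : ℕ) (f : ℍ → ℂ) (a : ℕ → ℤ), 0 < N → S2 N f →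
  QE f (fun n => (a n : ℂ)) → a 1 = 1 → TE N a (fun n => (a n : ℂ)) →
  ∀ (m : ℕ) (χ : MulChar (ZMod m) ℤ), 0 < m → χ.IsQuadratic →
  ∃ (M : ℕ) (g : ℍ → ℂ) (b : ℕ → ℝ) (ε : ℝ), NF M g b ε ∧
    (∀ p : ℕ, p.Prime → p ∣ M → p ∣ N * m) ∧
    (∀ n : ℕ, n.Coprime (N * m) → b n = a n * χ (n : ZMod m)) ∧
    M ∣ N * m ^ 2 ∧
    ∀ p : ℕ, p.Prime → p ∣ M → ¬ p ^ 2 ∣ M → ALw M p g (-(b p))

theorem pfNewfP (hQEx : StQEx) (hQEu : StQEu) (hConj : StConj) (hUp : StUp) (hTp : StTp)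
    (hWQ : StWQ) (hWu : StWu) (hWcm : StWcm) (hTr : StTr) (hTw : StTwist) (hSupp : StSupp) :
    StNewfP := by
  intro N f a hN hf hfq ha1 hte m χ hm hχ
  have hS : 0 < N * m := Nat.mul_pos hN hm
  have hsq : ∀ x : ZMod m, IsUnit x → χ x ^ 2 = 1 := by
    intro x hx
    have h1 : IsUnit (χ x) := hx.map χ
    rcases hχ x with h | h | h
    · rw [h] at h1
      simp at h1
    · rw [h]; norm_num
    · rw [h]; norm_num
  obtain ⟨F, hF, hFq⟩ := hTw N m (fun x => ((χ x : ℤ) : ℂ)) f (fun n => (a n : ℂ)) hN hm (by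
    intro u x
    have h1 := hsq u u.isUnit
    have h2 : χ ((u : ZMod m) ^ 2 * x) = χ x := by
      rw [map_mul, map_pow, h1, one_mul]
    rw [h2]) hf hfq
  have ha0 : a 0 = 0 := by
    have := coeff0 hQEx hQEu hN hf hfq
    exact_mod_cast this
  have hV : VV (N * m) (fun q => ((a q * χ (q : ZMod m) : ℤ) : ℝ)) (N * m ^ 2) F
      (fun n => ((χ (n : ZMod m) : ℤ) : ℂ) * (a n : ℂ)) := by
    refine ⟨hF, hFq, ?_⟩
    intro q hq hqS n
    have hqN : ¬ q ∣ N := fun h => hqS (Dvd.dvd.mul_right h m)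
    have hqm : ¬ q ∣ m := fun h => hqS (Dvd.dvd.mul_left h N)
    have hu : IsUnit ((q : ℕ) : ZMod m) := by
      rw [ZMod.isUnit_iff_coprime]
      exact (Nat.Prime.coprime_iff_not_dvd hq).2 hqm
    have h1 := hsq _ hu
    have h2 := hte q hq hqN n
    beta_reduce
    have h3 : χ ((q * n : ℕ) : ZMod m) = χ (q : ZMod m) * χ (n : ZMod m) := by
      rw [Nat.cast_mul, map_mul]
    rw [h3]
    by_cases hqn : q ∣ n
    · obtain ⟨k, rfl⟩ := hqn
      rw [if_pos (dvd_mul_right q k), Nat.mul_div_cancel_left _ hq.pos] at h2 ⊢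
      have h4 : χ ((q * k : ℕ) : ZMod m) = χ (q : ZMod m) * χ (k : ZMod m) := by
        rw [Nat.cast_mul, map_mul]
      rw [h4]
      have h5 : ((χ (q : ZMod m) : ℤ) : ℂ) ^ 2 = 1 := by exact_mod_cast h1
      push_cast
      linear_combination (((χ (q : ZMod m) : ℤ) : ℂ) ^ 2 * ((χ (k : ZMod m) : ℤ) : ℂ)) * h2 -
        (q : ℂ) * ((χ (k : ZMod m) : ℤ) : ℂ) * (a k : ℂ) * h5
    · rw [if_neg hqn] at h2 ⊢
      push_cast
      linear_combination (((χ (q : ZMod m) : ℤ) : ℂ) * ((χ (n : ZMod m) : ℤ) : ℂ)) * h2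
  obtain ⟨M, g, b, ε, hNF, hMdvd, hlam, hALp⟩ := coreP hQEx hQEu hConj hUp hTp hWQ hWu hWcm hTr hSupp
    (N * m) hS (fun q => ((a q * χ (q : ZMod m) : ℤ) : ℝ)) (N * m ^ 2)
    (Nat.mul_pos hN (pow_pos hm 2)) (by
      intro p hp hpd
      rcases (Nat.Prime.dvd_mul hp).1 hpd with h | h
      · exact Dvd.dvd.mul_right h m
      · exact Dvd.dvd.mul_left (hp.dvd_of_dvd_pow h) N) F _ hV ⟨1, by simp [ha1]⟩
  have hprimes : ∀ p : ℕ, p.Prime → p ∣ M → p ∣ N * m := by
    intro p hp hpM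
    rcases (Nat.Prime.dvd_mul hp).1 (hpM.trans hMdvd) with h | h
    · exact Dvd.dvd.mul_right h m
    · exact Dvd.dvd.mul_left (hp.dvd_of_dvd_pow h) N
  refine ⟨M, g, b, ε, hNF, hprimes, ?_, hMdvd, hALp⟩
  intro n
  induction n using Nat.strong_induction_on with
  | _ n ih =>
    intro hn
    rcases Nat.eq_zero_or_pos n with rfl | hnpos
    · rw [hNF.zero, ha0]; simp
    by_cases hn1 : n = 1
    · subst hn1
      rw [hNF.one, ha1]; simp
    obtain ⟨p, hp, hpn⟩ := Nat.exists_prime_and_dvd hn1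
    obtain ⟨k, rfl⟩ := hpn
    have hpS : ¬ p ∣ N * m := by
      intro h
      have := Nat.dvd_gcd (dvd_mul_right p k) h
      rw [hn] at this
      exact hp.one_lt.ne' (Nat.dvd_one.1 this)
    have hkpos : 0 < k := Nat.pos_of_ne_zero (by rintro rfl; simp at hnpos)
    have hklt : k < p * k := by
      have := hp.one_lt
      nlinarith
    have hkc : k.Coprime (N * m) := Nat.Coprime.coprime_dvd_left (dvd_mul_left k p) hn
    have h1 := hNF.good p hp (fun h => hpS (hprimes p hp h)) k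
    have h2 := hV.hr p hp hpS k
    have hbk := ih k hklt hkc
    have hbp : b p = a p * χ (p : ZMod m) := by
      rw [hlam p hp hpS]; push_cast; ring
    have h3 : (((χ ((p * k : ℕ) : ZMod m) : ℤ) : ℝ) * (a (p * k) : ℝ)) +
        (if p ∣ k then (p : ℝ) * (((χ ((k / p : ℕ) : ZMod m) : ℤ) : ℝ) * (a (k / p) : ℝ)) else 0)
        = (a p * χ (p : ZMod m)) * (((χ (k : ZMod m) : ℤ) : ℝ) * (a k : ℝ)) := by
      beta_reduce at h2
      by_cases hpk : p ∣ k
      · rw [if_pos hpk] at h2 ⊢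
        push_cast at h2 ⊢
        exact_mod_cast h2
      · rw [if_neg hpk] at h2 ⊢
        push_cast at h2 ⊢
        exact_mod_cast h2
    by_cases hpk : p ∣ k
    · rw [if_pos hpk] at h1 h3
      obtain ⟨j, rfl⟩ := hpk
      have hjc : j.Coprime (N * m) := Nat.Coprime.coprime_dvd_left (dvd_mul_left j p) hkc
      have hjpos : 0 < j := Nat.pos_of_ne_zero (by rintro rfl; simp at hkpos)
      have hjlt : j < p * (p * j) := by
        have := hp.one_lt
        nlinarith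
      have hbj := ih j hjlt hjc
      rw [Nat.mul_div_cancel_left _ hp.pos] at h1 h3
      rw [hbj, hbk, hbp] at h1
      linear_combination h1 - h3
    · rw [if_neg hpk] at h1 h3
      rw [hbk, hbp] at h1
      linear_combination h1 - h3

/-- U9 -/
theorem pfNewf (hQEx : StQEx) (hQEu : StQEu) (hConj : StConj) (hUp : StUp) (hTp : StTp)
    (hWQ : StWQ) (hWu : StWu) (hWcm : StWcm) (hTr : StTr) (hTw : StTwist) (hSupp : StSupp) :
    StNewf := by
  intro N f a hN hf hfq ha1 hte m χ hm hχ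
  obtain ⟨M, g, b, ε, h1, h2, h3, -⟩ := pfNewfP hQEx hQEu hConj hUp hTp hWQ hWu hWcm hTr hTw hSupp
    N f a hN hf hfq ha1 hte m χ hm hχ
  exact ⟨M, g, b, ε, h1, h2, h3⟩

end P004N.H65
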