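import Vale.Agent.P004N.DefsL
import Vale.Agent.P004N.H65.Newf

/-!
# P004N.H65: StNewf implies StNew (the character `χ_D` as a multiplicative character)
-/

namespace P004N.H65

open Vale.Agent.P004H.H871 (kr Fd RC kr_rc)

/-- a real character as a `MulChar` -/
noncomputable def rcChar {m : ℕ} [NeZero m] {c : ℤ → ℤ} (h : RC m c) : MulChar (ZMod m) ℤ where
  toFun x := c (x.val : ℤ)
  map_one' := by
    have := h.val 1
    rw [Int.cast_one] at this
    rw [this]
    exact h.one
  map_mul' x y := by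
    rw [← h.mul]
    apply h.per
    push_cast
    simp
  map_nonunit' x hx := by
    apply h.zero
    simpa using hx

theorem rcChar_apply {m : ℕ} [NeZero m] {c : ℤ → ℤ} (h : RC m c) (x : ZMod m) :
    rcChar h x = c (x.val : ℤ) := rfl

theorem rcChar_nat {m : ℕ} [NeZero m] {c : ℤ → ℤ} (h : RC m c) (n : ℕ) :
    rcChar h (n : ZMod m) = c n := by
  rw [rcChar_apply]
  have := h.val (n : ℤ)
  rwa [Int.cast_natCast] at this

theorem rcChar_quad {m : ℕ} [NeZero m] {c : ℤ → ℤ} (h : RC m c) : (rcChar h).IsQuadratic := by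
  intro x
  rw [rcChar_apply]
  by_cases hx : IsUnit x
  · right
    exact h.pm (by simpa using hx)
  · left
    exact h.zero _ (by simpa using hx)

theorem new_of_newf (h : StNewf) : StNew := by
  intro N f a hf D hD
  have hD0 : D ≠ 0 := hD.ne
  have : NeZero D.natAbs := ⟨Int.natAbs_ne_zero.2 hD0⟩
  obtain ⟨M, g, b, ε, h1, h2, h3⟩ := h N f a hf.pos hf.s2 hf.qe hf.one hf.te D.natAbs
    (rcChar (kr_rc hD)) (Int.natAbs_pos.2 hD0) (rcChar_quad (kr_rc hD))
  refine ⟨M, g, b, ε, h1, h2, ?_⟩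
  intro n hn
  rw [h3 n hn, rcChar_nat]

end P004N.H65
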