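import Vale.Agent.P004N.H461.UIf
import Vale.Agent.P004N.H503.Twist
import Vale.Agent.P004N.H503.Supp
import Vale.Agent.P004N.H65.NewD

/-!
# P004N.H65: the newform attached to `f ⊗ χ_D`, unconditional statements
-/

open UpperHalfPlane CongruenceSubgroup
open scoped MatrixGroups ModularForm Manifold Real

namespace P004N

open Vale.Agent.P004H.H871 (kr Fd RC kr_rc)

theorem pfNewfP : H65.StNewfP :=
  H65.pfNewfP H503.pfQEx H503.pfQEu H503.pfConj H461.pfUp H461.pfTp H461.pfWQ H461.pfWu H461.pfWcm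
    H461.pfTr H503.pfTwist H503.pfSupp

theorem pfNewf : StNewf :=
  H65.pfNewf H503.pfQEx H503.pfQEu H503.pfConj H461.pfUp H461.pfTp H461.pfWQ H461.pfWu H461.pfWcm
    H461.pfTr H503.pfTwist H503.pfSupp

/-- **Module T9** -/
theorem pfNew : StNew := H65.new_of_newf pfNewf

/-- T9 with more output: `M ∣ N D²`, and the Atkin-Lehner eigenvalues at the `p ‖ M` -/
theorem pfNewP : ∀ (N : ℕ) (f : ℍ → ℂ) (a : ℕ → ℤ), EF N f a → ∀ D : ℤ, Fd D →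
    ∃ (M : ℕ) (g : ℍ → ℂ) (b : ℕ → ℝ) (ε : ℝ), NF M g b ε ∧
      (∀ p : ℕ, p.Prime → p ∣ M → p ∣ N * D.natAbs) ∧
      (∀ n : ℕ, n.Coprime (N * D.natAbs) → b n = a n * kr D n) ∧
      M ∣ N * D.natAbs ^ 2 ∧
      ∀ p : ℕ, p.Prime → p ∣ M → ¬ p ^ 2 ∣ M → ALw M p g (-(b p)) := by
  intro N f a hf D hD
  have hD0 : D ≠ 0 := hD.ne
  have : NeZero D.natAbs := ⟨Int.natAbs_ne_zero.2 hD0⟩
  obtain ⟨M, g, b, ε, h1, h2, h3, h4, h5⟩ := pfNewfP N f a hf.pos hf.s2 hf.qe hf.one hf.te D.natAbs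
    (H65.rcChar (kr_rc hD)) (Int.natAbs_pos.2 hD0) (H65.rcChar_quad (kr_rc hD))
  refine ⟨M, g, b, ε, h1, h2, ?_, h4, h5⟩
  intro n hn
  rw [h3 n hn, H65.rcChar_nat]

end P004N
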