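import Vale.Agent.P004N.H974.RS

/-!
# P004N.H65: `|b p| < p + 1` for the newforms, `p ∤ M` (from Rankin-Selberg)
-/

open Filter

namespace P004N.H65

theorem rec_growth {u : ℕ → ℝ} {a p : ℝ} (hp : 1 < p) (ha : p + 1 ≤ |a|) (h0 : u 0 = 1)
    (h1 : u 1 = a) (hr : ∀ k, u (k + 2) = a * u (k + 1) - p * u k) (k : ℕ) :
    p ^ (k + 1) ≤ |u (k + 1)| - |u k| := by
  induction k with
  | zero =>
    rw [zero_add, h0, h1, pow_one, abs_one]
    linarith
  | succ k ih =>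
    have h2 : |a| * |u (k + 1)| - p * |u k| ≤ |u (k + 2)| := by
      rw [hr k]
      have h3 := abs_sub_abs_le_abs_sub (a * u (k + 1)) (p * u k)
      rw [abs_mul, abs_mul, abs_of_pos (by linarith : 0 < p)] at h3
      exact h3
    have h4 : 0 ≤ |u (k + 1)| := abs_nonneg _
    have h5 : (p + 1) * |u (k + 1)| ≤ |a| * |u (k + 1)| := mul_le_mul_of_nonneg_right ha h4
    have h6 : p * p ^ (k + 1) ≤ p * (|u (k + 1)| - |u k|) :=
      mul_le_mul_of_nonneg_left ih (by linarith)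
    have h7 : p ^ (k + 1 + 1) = p * p ^ (k + 1) := by ring
    rw [h7]
    show p * p ^ (k + 1) ≤ |u (k + 2)| - |u (k + 1)|
    linarith

theorem rec_growth' {u : ℕ → ℝ} {a p : ℝ} (hp : 1 < p) (ha : p + 1 ≤ |a|) (h0 : u 0 = 1)
    (h1 : u 1 = a) (hr : ∀ k, u (k + 2) = a * u (k + 1) - p * u k) (k : ℕ) :
    p ^ k ≤ |u k| := by
  rcases k with _ | k
  · rw [h0]; simp
  · have := rec_growth hp ha h0 h1 hr k
    have h4 : 0 ≤ |u k| := abs_nonneg _
    linarith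

/-- `|b p| < p + 1` at the primes not dividing the level -/
theorem nf_lt {M : ℕ} {g : UpperHalfPlane → ℂ} {b : ℕ → ℝ} {ε : ℝ} (h : NF M g b ε) {p : ℕ}
    (hp : p.Prime) (hpM : ¬ p ∣ M) : |b p| < p + 1 := by
  by_contra hcon
  rw [not_lt] at hcon
  have hp1 : (1 : ℝ) < p := by exact_mod_cast hp.one_lt
  have hr : ∀ k, b (p ^ (k + 2)) = b p * b (p ^ (k + 1)) - p * b (p ^ k) := by
    intro k
    have h1 := h.good p hp hpM (p ^ (k + 1))
    have h2 : p ^ (k + 1) / p = p ^ k := by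
      rw [pow_succ, Nat.mul_div_cancel _ hp.pos]
    rw [if_pos (dvd_pow_self p (Nat.succ_ne_zero k)), h2] at h1
    have h3 : p * p ^ (k + 1) = p ^ (k + 2) := by ring
    rw [h3] at h1
    linarith
  have hg : ∀ k, (p : ℝ) ^ k ≤ |b (p ^ k)| :=
    rec_growth' (u := fun k => b (p ^ k)) hp1 hcon (by simp [h.one]) (by simp) hr
  obtain ⟨C, δ, hC, hδ, hb⟩ := pfPowN M g b ε h
  have hlim : Tendsto (fun k : ℕ => ((p : ℝ) ^ k) ^ δ) atTop atTop :=
    (tendsto_rpow_atTop hδ).comp (tendsto_pow_atTop_atTop_of_one_lt hp1)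
  obtain ⟨k, hk⟩ := (hlim.eventually_gt_atTop C).exists
  have hx : (0 : ℝ) < (p : ℝ) ^ k := by positivity
  have h1 := hb (p ^ k) (Nat.one_le_pow _ _ hp.pos)
  have h2 : ((p : ℝ) ^ k) ^ 2 ≤ (b (p ^ k)) ^ 2 := by
    rw [← sq_abs (b (p ^ k))]
    exact pow_le_pow_left₀ hx.le (hg k) 2
  have h3 : ((p : ℝ) ^ k) ^ (2 : ℕ) ≤ C * ((p : ℝ) ^ k) ^ (2 - δ) := by
    have := h2.trans h1
    push_cast at this
    exact this
  have h4 : ((p : ℝ) ^ k) ^ δ * ((p : ℝ) ^ k) ^ (2 - δ) = ((p : ℝ) ^ k) ^ (2 : ℕ) := by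
    rw [← Real.rpow_add hx]
    have : δ + (2 - δ) = ((2 : ℕ) : ℝ) := by push_cast; ring
    rw [this, Real.rpow_natCast]
  rw [← h4] at h3
  have h5 : (0 : ℝ) < ((p : ℝ) ^ k) ^ (2 - δ) := Real.rpow_pos_of_pos hx _
  have h6 := le_of_mul_le_mul_right h3 h5
  linarith

/-- `|b p| ≤ 1` at the primes dividing the level -/
theorem nf_le_one {M : ℕ} {g : UpperHalfPlane → ℂ} {b : ℕ → ℝ} {ε : ℝ} (h : NF M g b ε) {p : ℕ}
    (hp : p.Prime) (hpM : p ∣ M) : |b p| ≤ 1 := by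
  by_cases h2 : p ^ 2 ∣ M
  · rw [h.bad2 p hp h2]; simp
  · have := h.bad1 p hp hpM h2
    rw [← sq_abs] at this
    have h3 : 0 ≤ |b p| := abs_nonneg _
    nlinarith

end P004N.H65
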