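import Vale.Agent.P004N.H503.Supp
import Vale.Agent.P004N.H65.Newf
import Vale.Agent.P004N.H65.Bound

/-!
# P004N.H65: strong multiplicity one for the newforms `NF`
-/

open UpperHalfPlane CongruenceSubgroup
open scoped MatrixGroups ModularForm Manifold Real Classical

namespace P004N.H65

open P004N.H503 (gm gm_mul gm_coe_smul slash_gm slash_scale qe_V pfQEu)

/-! ### the operators `V_k` and `W_K` -/

/-- `F ∣ [k, 0; 0, 1]` -/
noncomputable abbrev Vk (k : ℕ) (F : ℍ → ℂ) : ℍ → ℂ := F ∣[(2 : ℤ)] gm k 0 0 1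

/-- `F ∣ [0, -1; K, 0]` -/
noncomputable abbrev Wk (K : ℕ) (F : ℍ → ℂ) : ℍ → ℂ := F ∣[(2 : ℤ)] gm 0 (-1) K 0

theorem wk_mul {K k : ℕ} (hK : 0 < K) (hk : 0 < k) (F : ℍ → ℂ) :
    Wk (K * k) F = Vk k (Wk K F) := by
  have hK' : (0 : ℤ) < K := by exact_mod_cast hK
  have hk' : (0 : ℤ) < k := by exact_mod_cast hk
  unfold Wk Vk
  rw [← SlashAction.slash_mul, gm_mul (by simpa using hK'.ne') (by simpa using hk'.ne')]
  congr 2
  all_goals (try push_cast; try ring)

theorem wk_vk {K k : ℕ} (hK : 0 < K) (hk : 0 < k) (F : ℍ → ℂ) :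
    Wk (K * k) (Vk k F) = Wk K F := by
  have hK' : (0 : ℤ) < K := by exact_mod_cast hK
  have hk' : (0 : ℤ) < k := by exact_mod_cast hk
  have hKk : (0 : ℤ) < K * k := mul_pos hK' hk'
  unfold Wk Vk
  rw [← SlashAction.slash_mul, gm_mul (by simpa using hk'.ne') (by push_cast; simpa using hKk.ne')]
  have h := slash_scale (k := (k : ℤ)) (a := 0) (b := -1) (c := K) (d := 0) hk'.ne'
    (by simpa using hK') F
  rw [← h]
  congr 2
  all_goals (try push_cast; try ring)

theorem vk_comm {j k : ℕ} (hj : 0 < j) (hk : 0 < k) (F : ℍ → ℂ) :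
    Vk j (Vk k F) = Vk (k * j) F := by
  have hj' : (0 : ℤ) < j := by exact_mod_cast hj
  have hk' : (0 : ℤ) < k := by exact_mod_cast hk
  unfold Vk
  rw [← SlashAction.slash_mul, gm_mul (by simpa using hk'.ne') (by simpa using hj'.ne')]
  congr 2
  all_goals (try push_cast; try ring)

theorem slash_comb {a b c d : ℤ} (h : 0 < a * d - b * c) (x y : ℂ) (F G : ℍ → ℂ) :
    (fun z => x * F z + y * G z) ∣[(2 : ℤ)] gm a b c d =
      fun z => x * (F ∣[(2 : ℤ)] gm a b c d) z + y * (G ∣[(2 : ℤ)] gm a b c d) z := by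
  funext z
  rw [slash_gm h, slash_gm h, slash_gm h]
  ring

theorem wk_comb {K : ℕ} (hK : 0 < K) (x y : ℂ) (F G : ℍ → ℂ) :
    Wk K (fun z => x * F z + y * G z) = fun z => x * Wk K F z + y * Wk K G z :=
  slash_comb (by simpa using hK) x y F G

theorem vk_comb {k : ℕ} (hk : 0 < k) (x y : ℂ) (F G : ℍ → ℂ) :
    Vk k (fun z => x * F z + y * G z) = fun z => x * Vk k F z + y * Vk k G z :=
  slash_comb (by simpa using hk) x y F G

/-! ### coefficients -/

/-- `V_p` on coefficients -/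
noncomputable def Vc (p : ℕ) (c : ℕ → ℂ) (n : ℕ) : ℂ := if p ∣ n then (p : ℂ) * c (n / p) else 0

theorem qe_Vc {p : ℕ} (hp : 0 < p) {F : ℍ → ℂ} {c : ℕ → ℂ} (hF : QE F c) :
    QE (Vk p F) (Vc p c) := qe_V hF hp

theorem vc_mul {p : ℕ} (hp : 0 < p) (c : ℕ → ℂ) (k : ℕ) : Vc p c (p * k) = p * c k := by
  unfold Vc
  rw [if_pos (dvd_mul_right p k), Nat.mul_div_cancel_left _ hp]

theorem vc_not {p : ℕ} {c : ℕ → ℂ} {n : ℕ} (h : ¬ p ∣ n) : Vc p c n = 0 := by
  unfold Vc
  rw [if_neg h]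

theorem hr_V {q p : ℕ} {l : ℂ} {c : ℕ → ℂ} (hq : q.Prime) (hp : p.Prime) (hpq : p ≠ q)
    (hc : HR q l c) : HR q l (Vc p c) := by
  have h := hr_comb (p : ℂ) 0 (hr_B hq hp hpq hc) hc
  refine hr_congr h ?_
  intro n
  unfold Vc
  by_cases hn : p ∣ n
  · simp [hn]
  · simp [hn]

theorem ur_V {q p : ℕ} {l : ℂ} {c : ℕ → ℂ} (hq : q.Prime) (hp : p.Prime) (hpq : p ≠ q)
    (hc : ∀ n, c (q * n) = l * c n) (n : ℕ) : Vc p c (q * n) = l * Vc p c n := by
  have hcop : Nat.Coprime p q := (Nat.coprime_primes hp hq).2 hpq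
  by_cases hn : p ∣ n
  · obtain ⟨k, rfl⟩ := hn
    rw [Nat.mul_left_comm q p k, vc_mul hp.pos, vc_mul hp.pos, hc k]
    ring
  · have h1 : ¬ p ∣ q * n := fun h' => hn (hcop.dvd_of_dvd_mul_left h')
    rw [vc_not h1, vc_not hn, mul_zero]

/-! ### the depleted form and its Fricke transform -/

/-- `n` is prime to `T` -/
def cop (T : Finset ℕ) (n : ℕ) : Prop := ∀ q ∈ T, ¬ q ∣ n

theorem cop_mul {T : Finset ℕ} {p : ℕ} (hp : p.Prime) (hT : ∀ q ∈ T, q.Prime) (hpT : p ∉ T)
    (k : ℕ) : cop T (p * k) ↔ cop T k := by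
  unfold cop
  constructor
  · intro h q hq hk
    exact h q hq (Dvd.dvd.mul_left hk p)
  · intro h q hq hk
    rcases (Nat.Prime.dvd_mul (hT q hq)).1 hk with h1 | h1
    · have := (Nat.prime_dvd_prime_iff_eq (hT q hq) hp).1 h1
      exact hpT (this ▸ hq)
    · exact h q hq h1

theorem cop_insert {T : Finset ℕ} {p n : ℕ} : cop (insert p T) n ↔ ¬ p ∣ n ∧ cop T n := by
  unfold cop
  simp

/-- the depleted coefficients -/
noncomputable def dep (b : ℕ → ℝ) (T : Finset ℕ) (n : ℕ) : ℂ := if cop T n then (b n : ℂ) else 0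

/-- local information at `p` -/
structure Loc (M p : ℕ) (b : ℕ → ℝ) (c : ℕ → ℂ) : Prop where
  good1 : ¬ p ∣ M → c p = -((p : ℂ) - 1) * b p * c 1
  good2 : ¬ p ∣ M → c (p ^ 2) = ((p : ℂ) - 1) * ((p : ℂ) ^ 2 + p - (b p : ℂ) ^ 2) * c 1
  st : p ∣ M → ¬ p ^ 2 ∣ M → c p = -((p : ℂ) ^ 2 - 1) * b p * c 1
  add1 : p ^ 2 ∣ M → c p = 0
  add2 : p ^ 2 ∣ M → c (p ^ 2) = 0

theorem Loc.scale {M p : ℕ} {b : ℕ → ℝ} {c c' : ℕ → ℂ} (h : Loc M p b c) (x : ℂ)
    (h1 : c' 1 = x * c 1) (hp : c' p = x * c p) (hp2 : c' (p ^ 2) = x * c (p ^ 2)) :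
    Loc M p b c' := by
  refine ⟨fun h0 => ?_, fun h0 => ?_, fun h0 h2 => ?_, fun h0 => ?_, fun h0 => ?_⟩
  · rw [hp, h.good1 h0, h1]; ring
  · rw [hp2, h.good2 h0, h1]; ring
  · rw [hp, h.st h0 h2, h1]; ring
  · rw [hp, h.add1 h0, mul_zero]
  · rw [hp2, h.add2 h0, mul_zero]

structure Dep (M : ℕ) (b : ℕ → ℝ) (T : Finset ℕ) (K : ℕ) (H Hs : ℍ → ℂ) (cs : ℕ → ℂ) : Prop where
  kpos : 0 < K
  qe : QE H (dep b T)
  fr : Wk K H = Hs
  qs : QE Hs cs
  hg : ∀ p, p.Prime → p ∉ T → ¬ p ∣ M → HR p (b p) cs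
  hb : ∀ p, p.Prime → p ∉ T → p ∣ M → ∀ n, cs (p * n) = b p * cs n
  ne : cs 1 ≠ 0
  loc : ∀ p ∈ T, Loc M p b cs

/-- degree of the Euler factor -/
noncomputable def dg (M p : ℕ) : ℕ := if p ^ 2 ∣ M then 0 else if p ∣ M then 1 else 2

theorem Dep.base {M : ℕ} {g : ℍ → ℂ} {b : ℕ → ℝ} {ε : ℝ} (h : NF M g b ε) :
    ∃ (Hs : ℍ → ℂ) (cs : ℕ → ℂ), Dep M b ∅ M g Hs cs := by
  have hM : (0 : ℤ) < M := by exact_mod_cast h.pos
  have hMc : (M : ℂ) ≠ 0 := by exact_mod_cast h.pos.ne'
  have hε : (ε : ℂ) ≠ 0 := by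
    rcases h.sgn with h1 | h1 <;> rw [h1] <;> norm_num
  have hg' : ∀ p : ℕ, p.Prime → ¬ p ∣ M → HR p (b p) (fun n => (b n : ℂ)) := by
    intro p hp hpM n
    have h1 := h.good p hp hpM n
    by_cases hpn : p ∣ n
    · rw [if_pos hpn] at h1 ⊢
      beta_reduce
      exact_mod_cast h1
    · rw [if_neg hpn] at h1 ⊢
      beta_reduce
      exact_mod_cast h1
  refine ⟨fun z => ε * g z + 0 * g z, fun n => ε * (b n : ℂ) + 0 * (b n : ℂ), h.pos, ?_, ?_,
    qe_comb _ _ h.qe h.qe, ?_, ?_, ?_, ?_⟩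
  · refine qe_congr h.qe ?_
    intro n
    unfold dep cop
    simp
  · funext z
    have hd : (0 : ℤ) < 0 * 0 - (-1) * (M : ℤ) := by simpa using hM
    unfold Wk
    rw [slash_gm hd]
    have h1 := h.al 0 (-1) 1 0 (by ring) z (gm 0 (-1) M 0 • z) (by
      rw [gm_coe_smul hd]
      push_cast
      ring)
    rw [h1]
    have hz : (z : ℂ) ≠ 0 := UpperHalfPlane.ne_zero z
    push_cast
    field_simp
    ring
  · intro p hp _ hpM
    exact hr_comb _ _ (hg' p hp hpM) (hg' p hp hpM)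
  · intro p hp _ hpM n
    have h1 : (b (p * n) : ℂ) = b p * b n := by exact_mod_cast h.bad p hp hpM n
    rw [h1]
    ring
  · rw [h.one]
    simpa using hε
  · simp

theorem Dep.step {M : ℕ} {g : ℍ → ℂ} {b : ℕ → ℝ} {ε : ℝ} (h : NF M g b ε) {T : Finset ℕ}
    (hT : ∀ q ∈ T, q.Prime) {p : ℕ} (hp : p.Prime) (hpT : p ∉ T) {K : ℕ} {H Hs : ℍ → ℂ}
    {cs : ℕ → ℂ} (hD : Dep M b T K H Hs cs) :
    ∃ (H' Hs' : ℍ → ℂ) (cs' : ℕ → ℂ), Dep M b (insert p T) (K * p ^ dg M p) H' Hs' cs' := by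
  have hp0 : (p : ℂ) ≠ 0 := by exact_mod_cast hp.ne_zero
  have hK := hD.kpos
  have hcm : ∀ k, cop T (p * k) ↔ cop T k := cop_mul hp hT hpT
  have hnot1 : ¬ p ∣ 1 := fun h' => hp.one_lt.ne' (Nat.dvd_one.1 h')
  have hqp : ∀ q ∈ T, q.Prime ∧ q ≠ p := fun q hq => ⟨hT q hq, by rintro rfl; exact hpT hq⟩
  have hnq : ∀ q ∈ T, ¬ p ∣ q := fun q hq h' =>
    (hqp q hq).2 ((Nat.prime_dvd_prime_iff_eq hp (hT q hq)).1 h').symm
  have hnq2 : ∀ q ∈ T, ¬ p ∣ q ^ 2 := fun q hq h' => hnq q hq (hp.dvd_of_dvd_pow h')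
  have hins : ∀ q : ℕ, q ∉ insert p T → q ∉ T ∧ p ≠ q := by
    intro q hq
    rw [Finset.mem_insert, not_or] at hq
    exact ⟨hq.2, Ne.symm hq.1⟩
  by_cases hp2 : p ^ 2 ∣ M
  · -- additive
    have hpM : p ∣ M := (dvd_pow_self p two_ne_zero).trans hp2
    have hdg : dg M p = 0 := by unfold dg; rw [if_pos hp2]
    have hbp : b p = 0 := h.bad2 p hp hp2
    rw [hdg, pow_zero, mul_one]
    refine ⟨H, Hs, cs, hK, ?_, hD.fr, hD.qs, ?_, ?_, hD.ne, ?_⟩
    · refine qe_congr hD.qe ?_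
      intro n
      unfold dep
      rw [cop_insert]
      by_cases hpn : p ∣ n
      · obtain ⟨k, rfl⟩ := hpn
        have : b (p * k) = 0 := by rw [h.bad p hp hpM k, hbp, zero_mul]
        rw [this]
        simp
      · simp [hpn]
    · intro q hq hqT hqM
      exact hD.hg q hq (hins q hqT).1 hqM
    · intro q hq hqT hqM
      exact hD.hb q hq (hins q hqT).1 hqM
    · intro q hq
      rcases Finset.mem_insert.1 hq with rfl | hq'
      · have hc : ∀ n, cs (q * n) = 0 := by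
          intro n
          rw [hD.hb q hp hpT hpM n, hbp]
          simp
        refine ⟨fun h0 => absurd hpM h0, fun h0 => absurd hpM h0, fun _ h0 => absurd hp2 h0,
          fun _ => ?_, fun _ => ?_⟩
        · have := hc 1
          rwa [mul_one] at this
        · have := hc q
          rwa [← pow_two] at this
      · exact hD.loc q hq'
  by_cases hpM : p ∣ M
  · -- Steinberg
    have hdg : dg M p = 1 := by unfold dg; rw [if_neg hp2, if_pos hpM]
    have hb2 : (b p : ℂ) ^ 2 = 1 := by exact_mod_cast h.bad1 p hp hpM hp2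
    have hb0 : (b p : ℂ) ≠ 0 := by
      intro h0
      rw [h0] at hb2
      norm_num at hb2
    rw [hdg, pow_one]
    have hq1 : QE (fun z => 1 * H z + (-(b p / p : ℂ)) * Vk p H z)
        (fun n => 1 * dep b T n + (-(b p / p : ℂ)) * Vc p (dep b T) n) :=
      qe_comb _ _ hD.qe (qe_Vc hp.pos hD.qe)
    have hq2 : QE (fun z => 1 * Vk p Hs z + (-(b p / p : ℂ)) * Hs z)
        (fun n => 1 * Vc p cs n + (-(b p / p : ℂ)) * cs n) :=
      qe_comb _ _ (qe_Vc hp.pos hD.qs) hD.qs
    refine ⟨_, _, _, Nat.mul_pos hK hp.pos, qe_congr hq1 ?_, ?_, hq2, ?_, ?_, ?_, ?_⟩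
    · intro n
      unfold dep
      rw [cop_insert]
      by_cases hpn : p ∣ n
      · obtain ⟨k, rfl⟩ := hpn
        rw [vc_mul hp.pos]
        have h1 : (b (p * k) : ℂ) = b p * b k := by exact_mod_cast h.bad p hp hpM k
        by_cases hk : cop T k
        · rw [if_pos ((hcm k).2 hk), if_pos hk, h1, if_neg (by simp)]
          field_simp
          ring
        · rw [if_neg (fun h' => hk ((hcm k).1 h')), if_neg hk, if_neg (by simp)]
          ring
      · rw [vc_not hpn]
        simp [hpn]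
    · rw [wk_comb (Nat.mul_pos hK hp.pos), wk_mul hK hp.pos, wk_vk hK hp.pos, hD.fr]
    · intro q hq hqT hqM
      have h1 := hD.hg q hq (hins q hqT).1 hqM
      exact hr_comb _ _ (hr_V hq hp (hins q hqT).2 h1) h1
    · intro q hq hqT hqM n
      have h1 := hD.hb q hq (hins q hqT).1 hqM
      have h2 := ur_V hq hp (hins q hqT).2 h1 n
      beta_reduce
      rw [h2, h1 n]
      ring
    · beta_reduce
      rw [vc_not hnot1]
      intro h0
      have h1 : (b p / p : ℂ) * cs 1 = 0 := by linear_combination -h0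
      rcases mul_eq_zero.1 h1 with h2 | h2
      · exact (div_ne_zero hb0 hp0) h2
      · exact hD.ne h2
    · intro q hq
      rcases Finset.mem_insert.1 hq with rfl | hq'
      · refine ⟨fun h0 => absurd hpM h0, fun h0 => absurd hpM h0, fun _ _ => ?_,
          fun h0 => absurd h0 hp2, fun h0 => absurd h0 hp2⟩
        have h1 := hD.hb q hp hpT hpM 1
        have h2 := vc_mul hp.pos cs 1
        rw [mul_one] at h1 h2
        beta_reduce
        rw [h1, h2, vc_not hnot1]
        field_simp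
        linear_combination (-(q : ℂ) ^ 2 * cs 1) * hb2
      · refine (hD.loc q hq').scale (-(b p / p : ℂ)) ?_ ?_ ?_
        · beta_reduce; rw [vc_not hnot1]; ring
        · beta_reduce; rw [vc_not (hnq q hq')]; ring
        · beta_reduce; rw [vc_not (hnq2 q hq')]; ring
  · -- unramified
    have hdg : dg M p = 2 := by unfold dg; rw [if_neg hp2, if_neg hpM]
    rw [hdg, pow_two, ← mul_assoc]
    have hKp : 0 < K * p := Nat.mul_pos hK hp.pos
    have hKpp : 0 < K * p * p := Nat.mul_pos hKp hp.pos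
    set x : ℂ := -(b p / p : ℂ) with hx
    have hq1 : QE (fun z => 1 * (fun z => 1 * H z + x * Vk p H z) z +
          (1 / p : ℂ) * Vk p (Vk p H) z)
        (fun n => 1 * (fun n => 1 * dep b T n + x * Vc p (dep b T) n) n +
          (1 / p : ℂ) * Vc p (Vc p (dep b T)) n) :=
      qe_comb _ _ (qe_comb _ _ hD.qe (qe_Vc hp.pos hD.qe))
        (qe_Vc hp.pos (qe_Vc hp.pos hD.qe))
    have hq2 : QE (fun z => 1 * (fun z => 1 * Vk p (Vk p Hs) z + x * Vk p Hs z) z +
          (1 / p : ℂ) * Hs z)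
        (fun n => 1 * (fun n => 1 * Vc p (Vc p cs) n + x * Vc p cs n) n +
          (1 / p : ℂ) * cs n) :=
      qe_comb _ _ (qe_comb _ _ (qe_Vc hp.pos (qe_Vc hp.pos hD.qs)) (qe_Vc hp.pos hD.qs)) hD.qs
    refine ⟨_, _, _, hKpp, qe_congr hq1 ?_, ?_, hq2, ?_, ?_, ?_, ?_⟩
    · intro n
      beta_reduce
      by_cases hpn : p ∣ n
      · obtain ⟨k, rfl⟩ := hpn
        rw [vc_mul hp.pos, vc_mul hp.pos]
        have h1 := h.good p hp hpM k
        have hR : dep b (insert p T) (p * k) = 0 := by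
          unfold dep
          rw [cop_insert, if_neg (by simp)]
        rw [hR]
        by_cases hk : cop T k
        · have e1 : dep b T (p * k) = b (p * k) := by
            unfold dep; rw [if_pos ((hcm k).2 hk)]
          have e2 : dep b T k = b k := by unfold dep; rw [if_pos hk]
          by_cases hpk : p ∣ k
          · obtain ⟨j, rfl⟩ := hpk
            have e3 : dep b T j = b j := by
              unfold dep; rw [if_pos ((hcm j).1 hk)]
            rw [if_pos (dvd_mul_right p j), Nat.mul_div_cancel_left _ hp.pos] at h1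
            have h1' : (b (p * (p * j)) : ℂ) + p * b j = b p * b (p * j) := by exact_mod_cast h1
            rw [e1, e2, vc_mul hp.pos, e3, hx]
            field_simp
            linear_combination h1'
          · rw [if_neg hpk] at h1
            have h1' : (b (p * k) : ℂ) + 0 = b p * b k := by exact_mod_cast h1
            rw [e1, e2, vc_not hpk, hx]
            field_simp
            linear_combination h1'
        · have e1 : dep b T (p * k) = 0 := by
            unfold dep; rw [if_neg (fun h' => hk ((hcm k).1 h'))]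
          have e2 : dep b T k = 0 := by unfold dep; rw [if_neg hk]
          by_cases hpk : p ∣ k
          · obtain ⟨j, rfl⟩ := hpk
            have e3 : dep b T j = 0 := by
              unfold dep; rw [if_neg (fun h' => hk ((hcm j).2 h'))]
            rw [e1, e2, vc_mul hp.pos, e3]
            ring
          · rw [e1, e2, vc_not hpk]
            ring
      · rw [vc_not hpn, vc_not hpn]
        unfold dep
        rw [cop_insert]
        simp [hpn]
    · rw [wk_comb hKpp, wk_comb hKpp, wk_mul hKp hp.pos, wk_mul hK hp.pos, wk_vk hKp hp.pos,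
        wk_mul hK hp.pos, wk_vk hKp hp.pos, wk_vk hK hp.pos, hD.fr]
    · intro q hq hqT hqM
      have h1 := hD.hg q hq (hins q hqT).1 hqM
      have h2 := hr_V hq hp (hins q hqT).2 h1
      exact hr_comb _ _ (hr_comb _ _ (hr_V hq hp (hins q hqT).2 h2) h2) h1
    · intro q hq hqT hqM n
      have h1 := hD.hb q hq (hins q hqT).1 hqM
      have h2 := ur_V hq hp (hins q hqT).2 h1
      have h3 := ur_V hq hp (hins q hqT).2 h2
      beta_reduce
      rw [h3 n, h2 n, h1 n]
      ring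
    · beta_reduce
      rw [vc_not hnot1, vc_not hnot1]
      intro h0
      have h1 : (1 / p : ℂ) * cs 1 = 0 := by linear_combination h0
      rcases mul_eq_zero.1 h1 with h2 | h2
      · exact (one_div_ne_zero hp0) h2
      · exact hD.ne h2
    · intro q hq
      rcases Finset.mem_insert.1 hq with rfl | hq'
      · have h1 := hD.hg q hp hpT hpM 1
        have h2 := hD.hg q hp hpT hpM q
        rw [if_neg hnot1, mul_one] at h1
        rw [if_pos (dvd_refl q), Nat.div_self hp.pos] at h2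
        have e1 := vc_mul hp.pos cs 1
        have e2 := vc_mul hp.pos cs q
        have e3 := vc_mul hp.pos (Vc q cs) q
        have e4 := vc_mul hp.pos (Vc q cs) 1
        rw [mul_one] at e1 e4
        rw [← pow_two] at e2 e3
        rw [← pow_two] at h2
        refine ⟨fun _ => ?_, fun _ => ?_, fun h0 => absurd h0 hpM,
          fun h0 => absurd h0 hp2, fun h0 => absurd h0 hp2⟩
        · beta_reduce
          rw [e4, e1, vc_not hnot1, vc_not (c := Vc q cs) hnot1]
          have h1' : cs q = b q * cs 1 := by linear_combination h1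
          rw [h1', hx]
          field_simp
          ring
        · beta_reduce
          rw [e3, e2, e1]
          simp only [vc_not hnot1]
          have h1' : cs q = b q * cs 1 := by linear_combination h1
          have h2' : cs (q ^ 2) = b q * cs q - q * cs 1 := by linear_combination h2
          rw [h2', h1', hx]
          field_simp
          ring
      · refine (hD.loc q hq').scale (1 / p : ℂ) ?_ ?_ ?_
        · beta_reduce; rw [vc_not hnot1, vc_not hnot1]; ring
        · beta_reduce; rw [vc_not (hnq q hq'), vc_not (hnq q hq')]; ring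
        · beta_reduce; rw [vc_not (hnq2 q hq'), vc_not (hnq2 q hq')]; ring

theorem Dep.exists {M : ℕ} {g : ℍ → ℂ} {b : ℕ → ℝ} {ε : ℝ} (h : NF M g b ε) (T : Finset ℕ)
    (hT : ∀ q ∈ T, q.Prime) :
    ∃ (H Hs : ℍ → ℂ) (cs : ℕ → ℂ), Dep M b T (M * ∏ p ∈ T, p ^ dg M p) H Hs cs := by
  induction T using Finset.induction_on with
  | empty =>
    obtain ⟨Hs, cs, h1⟩ := Dep.base h
    exact ⟨g, Hs, cs, by simpa using h1⟩
  | insert p T hpT ih =>
    obtain ⟨H, Hs, cs, h1⟩ := ih (fun q hq => hT q (Finset.mem_insert_of_mem hq))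
    obtain ⟨H', Hs', cs', h2⟩ := Dep.step h (fun q hq => hT q (Finset.mem_insert_of_mem hq))
      (hT p (Finset.mem_insert_self p T)) hpT h1
    refine ⟨H', Hs', cs', ?_⟩
    rw [Finset.prod_insert hpT]
    have e : M * (p ^ dg M p * ∏ x ∈ T, x ^ dg M x) = (M * ∏ x ∈ T, x ^ dg M x) * p ^ dg M p := by
      ring
    rw [e]
    exact h2

/-- comparison of two depleted forms which agree -/
theorem dep_compare {M M' : ℕ} {b b' : ℕ → ℝ} {T : Finset ℕ} {K K' : ℕ} {H Hs H' Hs' : ℍ → ℂ}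
    {cs cs' : ℕ → ℂ} (h : Dep M b T K H Hs cs) (h' : Dep M' b' T K' H' Hs' cs')
    (hbb : ∀ n, dep b T n = dep b' T n) : K = K' ∧ ∀ n, cs n = cs' n := by
  have hHH : H = H' := by
    funext z
    exact qe_eq_fun h.qe h'.qe hbb z
  have hK := h.kpos
  have hK' := h'.kpos
  have e1 : Vk K' Hs = Vk K Hs' := by
    rw [← h.fr, ← h'.fr, ← wk_mul hK hK', ← wk_mul hK' hK, hHH, mul_comm]
  have hq1 := qe_Vc hK' h.qs
  have hq2 := qe_Vc hK h'.qs
  rw [e1] at hq1
  have e2 := pfQEu _ _ _ hq1 hq2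
  have hd1 : K ∣ K' := by
    by_contra hcon
    have h1 := congrFun e2 K'
    have h2 := vc_mul hK' cs 1
    rw [mul_one] at h2
    rw [h2, vc_not hcon] at h1
    have h3 : (K' : ℂ) ≠ 0 := by exact_mod_cast hK'.ne'
    rcases mul_eq_zero.1 h1 with h4 | h4
    · exact h3 h4
    · exact h.ne h4
  have hd2 : K' ∣ K := by
    by_contra hcon
    have h1 := congrFun e2 K
    have h2 := vc_mul hK cs' 1
    rw [mul_one] at h2
    rw [h2, vc_not hcon] at h1
    have h3 : (K : ℂ) ≠ 0 := by exact_mod_cast hK.ne'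
    rcases mul_eq_zero.1 h1.symm with h4 | h4
    · exact h3 h4
    · exact h'.ne h4
  have hKK : K = K' := Nat.dvd_antisymm hd1 hd2
  refine ⟨hKK, fun n => ?_⟩
  subst hKK
  have h1 := congrFun e2 (K * n)
  rw [vc_mul hK, vc_mul hK] at h1
  have h3 : (K : ℂ) ≠ 0 := by exact_mod_cast hK.ne'
  exact mul_left_cancel₀ h3 h1

/-- comparison of the local types -/
theorem loc_compare {M M' : ℕ} {g g' : ℍ → ℂ} {b b' : ℕ → ℝ} {ε ε' : ℝ} (h : NF M g b ε)
    (h' : NF M' g' b' ε') {p : ℕ} (hp : p.Prime) {c c' : ℕ → ℂ} (hL : Loc M p b c)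
    (hL' : Loc M' p b' c') (hc : ∀ n, c n = c' n) (h1 : c 1 ≠ 0) :
    (¬ p ∣ M → ¬ p ∣ M' → b p = b' p) ∧
    (¬ p ∣ M → p ∣ M' → False) ∧
    (p ∣ M → ¬ p ^ 2 ∣ M → p ^ 2 ∣ M' → False) ∧
    (p ∣ M → ¬ p ^ 2 ∣ M → p ∣ M' → ¬ p ^ 2 ∣ M' → b p = b' p) := by
  have hp1 : (1 : ℝ) < p := by exact_mod_cast hp.one_lt
  have hpc1 : (p : ℂ) - 1 ≠ 0 := by
    have : ((p : ℝ) - 1 : ℝ) ≠ 0 := by linarith
    exact_mod_cast this
  have hpc2 : (p : ℂ) ^ 2 - 1 ≠ 0 := by
    have : ((p : ℝ) ^ 2 - 1 : ℝ) ≠ 0 := by nlinarith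
    exact_mod_cast this
  refine ⟨fun a1 a2 => ?_, fun a1 a2 => ?_, fun a1 a2 a3 => ?_, fun a1 a2 a3 a4 => ?_⟩
  · have e1 := hL.good1 a1
    have e2 := hL'.good1 a2
    rw [← hc, ← hc, e1] at e2
    have e3 : ((p : ℂ) - 1) * c 1 * ((b p : ℂ) - b' p) = 0 := by linear_combination -e2
    have e4 : (b p : ℂ) - b' p = 0 := by
      rcases mul_eq_zero.1 e3 with e5 | e5
      · exact absurd e5 (mul_ne_zero hpc1 h1)
      · exact e5
    have : (b p : ℂ) = b' p := by linear_combination e4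
    exact_mod_cast this
  · have e1 := hL.good1 a1
    have e1' := hL.good2 a1
    by_cases a3 : p ^ 2 ∣ M'
    · have e2 := hL'.add1 a3
      have e3 := hL'.add2 a3
      rw [← hc] at e2 e3
      rw [e1] at e2
      have e4 : (b p : ℂ) = 0 := by
        have e5 : ((p : ℂ) - 1) * c 1 * (b p : ℂ) = 0 := by linear_combination -e2
        rcases mul_eq_zero.1 e5 with e6 | e6
        · exact absurd e6 (mul_ne_zero hpc1 h1)
        · exact e6
      rw [e1', e4] at e3
      have e7 : ((p : ℂ) - 1) * c 1 * ((p : ℂ) ^ 2 + p) = 0 := by linear_combination e3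
      have e8 : ((p : ℂ) ^ 2 + p) ≠ 0 := by
        have : ((p : ℝ) ^ 2 + p : ℝ) ≠ 0 := by nlinarith
        exact_mod_cast this
      exact (mul_ne_zero (mul_ne_zero hpc1 h1) e8) e7
    · have e2 := hL'.st a2 a3
      rw [← hc, ← hc, e1] at e2
      have e3 : ((p : ℂ) - 1) * c 1 * ((b p : ℂ) - (p + 1) * b' p) = 0 := by
        linear_combination -e2
      have e4 : (b p : ℂ) = (p + 1) * b' p := by
        rcases mul_eq_zero.1 e3 with e5 | e5
        · exact absurd e5 (mul_ne_zero hpc1 h1)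
        · linear_combination e5
      have e5 : b p = (p + 1) * b' p := by exact_mod_cast e4
      have e6 := nf_lt h hp a1
      have e7 := h'.bad1 p hp a2 a3
      have e8 : (b p) ^ 2 = (p + 1) ^ 2 := by
        rw [e5, mul_pow, e7, mul_one]
      have e9 : |b p| ^ 2 = (p + 1) ^ 2 := by rw [sq_abs, e8]
      have e10 : 0 ≤ |b p| := abs_nonneg _
      nlinarith
  · have e1 := hL.st a1 a2
    have e2 := hL'.add1 a3
    rw [← hc, e1] at e2
    have e3 := h.bad1 p hp a1 a2
    have e4 : (b p : ℂ) ≠ 0 := by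
      intro e5
      have e6 : b p = 0 := by exact_mod_cast e5
      rw [e6] at e3
      norm_num at e3
    have e5 : ((p : ℂ) ^ 2 - 1) * b p * c 1 = 0 := by linear_combination -e2
    exact (mul_ne_zero (mul_ne_zero hpc2 e4) h1) e5
  · have e1 := hL.st a1 a2
    have e2 := hL'.st a3 a4
    rw [← hc, ← hc, e1] at e2
    have e3 : ((p : ℂ) ^ 2 - 1) * c 1 * ((b p : ℂ) - b' p) = 0 := by linear_combination -e2
    have e4 : (b p : ℂ) - b' p = 0 := by
      rcases mul_eq_zero.1 e3 with e5 | e5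
      · exact absurd e5 (mul_ne_zero hpc2 h1)
      · exact e5
    have : (b p : ℂ) = b' p := by linear_combination e4
    exact_mod_cast this

/-- the coefficients are determined by the values at the primes -/
theorem nf_eq_of_primes {M : ℕ} {g g' : ℍ → ℂ} {b b' : ℕ → ℝ} {ε ε' : ℝ} (h : NF M g b ε)
    (h' : NF M g' b' ε') (hp : ∀ p : ℕ, p.Prime → b p = b' p) (n : ℕ) : b n = b' n := by
  induction n using Nat.strong_induction_on with
  | _ n ih =>
    rcases Nat.eq_zero_or_pos n with rfl | hnpos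
    · rw [h.zero, h'.zero]
    by_cases hn1 : n = 1
    · subst hn1
      rw [h.one, h'.one]
    obtain ⟨p, hpp, hpn⟩ := Nat.exists_prime_and_dvd hn1
    obtain ⟨k, rfl⟩ := hpn
    have hkpos : 0 < k := Nat.pos_of_ne_zero (by rintro rfl; simp at hnpos)
    have hklt : k < p * k := by
      have := hpp.one_lt
      nlinarith
    have hbk := ih k hklt
    by_cases hpM : p ∣ M
    · rw [h.bad p hpp hpM, h'.bad p hpp hpM, hbk, hp p hpp]
    · have h1 := h.good p hpp hpM k
      have h2 := h'.good p hpp hpM k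
      by_cases hpk : p ∣ k
      · rw [if_pos hpk] at h1 h2
        have hlt : k / p < p * k := lt_of_le_of_lt (Nat.div_le_self _ _) hklt
        rw [ih _ hlt, hbk, hp p hpp] at h1
        linarith
      · rw [if_neg hpk] at h1 h2
        rw [hbk, hp p hpp] at h1
        linarith

/-- **strong multiplicity one** for newforms of weight two with real coefficients -/
theorem smo {M M' : ℕ} {g g' : ℍ → ℂ} {b b' : ℕ → ℝ} {ε ε' : ℝ} (h : NF M g b ε)
    (h' : NF M' g' b' ε') {S : ℕ} (hS : S ≠ 0)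
    (hp : ∀ p : ℕ, p.Prime → ¬ p ∣ S → b p = b' p) :
    M = M' ∧ (∀ z, g z = g' z) ∧ (∀ n, b n = b' n) ∧ ε = ε' := by
  have hSMM : S * M * M' ≠ 0 := mul_ne_zero (mul_ne_zero hS h.pos.ne') h'.pos.ne'
  set T : Finset ℕ := (S * M * M').primeFactors with hT
  have hTp : ∀ q ∈ T, q.Prime := fun q hq => Nat.prime_of_mem_primeFactors hq
  have hmem : ∀ p : ℕ, p.Prime → p ∣ S * M * M' → p ∈ T := by
    intro p hpp hd
    rw [hT, Nat.mem_primeFactors]
    exact ⟨hpp, hd, hSMM⟩
  obtain ⟨H, Hs, cs, hD⟩ := Dep.exists h T hTp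
  obtain ⟨H', Hs', cs', hD'⟩ := Dep.exists h' T hTp
  have hbT : ∀ n, cop T n → n ≠ 0 → b n = b' n := by
    intro n
    induction n using Nat.strong_induction_on with
    | _ n ih =>
      intro hn hn0
      by_cases hn1 : n = 1
      · subst hn1
        rw [h.one, h'.one]
      obtain ⟨p, hpp, hpn⟩ := Nat.exists_prime_and_dvd hn1
      obtain ⟨k, rfl⟩ := hpn
      have hkpos : 0 < k := Nat.pos_of_ne_zero (by rintro rfl; simp at hn0)
      have hklt : k < p * k := by
        have := hpp.one_lt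
        nlinarith
      have hpT : p ∉ T := fun h0 => hn p h0 (dvd_mul_right p k)
      have hpS : ¬ p ∣ S := fun h0 => hpT (hmem p hpp (by
        rw [mul_assoc]; exact Dvd.dvd.mul_right h0 _))
      have hpM : ¬ p ∣ M := fun h0 => hpT (hmem p hpp (by
        exact Dvd.dvd.mul_right (Dvd.dvd.mul_left h0 S) _))
      have hpM' : ¬ p ∣ M' := fun h0 => hpT (hmem p hpp (Dvd.dvd.mul_left h0 _))
      have hkc : cop T k := fun q hq hqk => hn q hq (Dvd.dvd.mul_left hqk p)
      have hbk := ih k hklt hkc hkpos.ne'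
      have h1 := h.good p hpp hpM k
      have h2 := h'.good p hpp hpM' k
      by_cases hpk : p ∣ k
      · rw [if_pos hpk] at h1 h2
        obtain ⟨j, rfl⟩ := hpk
        have hjpos : 0 < j := Nat.pos_of_ne_zero (by rintro rfl; simp at hkpos)
        have hjlt : j < p * (p * j) := by
          have := hpp.one_lt
          nlinarith
        have hjc : cop T j := fun q hq hqj => hkc q hq (Dvd.dvd.mul_left hqj p)
        rw [Nat.mul_div_cancel_left _ hpp.pos] at h1 h2
        rw [ih j hjlt hjc hjpos.ne', hbk, hp p hpp hpS] at h1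
        linarith
      · rw [if_neg hpk] at h1 h2
        rw [hbk, hp p hpp hpS] at h1
        linarith
  have hbb : ∀ n, dep b T n = dep b' T n := by
    intro n
    unfold dep
    by_cases hn : cop T n
    · rw [if_pos hn, if_pos hn]
      by_cases hn0 : n = 0
      · subst hn0
        rw [h.zero, h'.zero]
      · rw [hbT n hn hn0]
    · rw [if_neg hn, if_neg hn]
  obtain ⟨hKK, hcc⟩ := dep_compare hD hD' hbb
  have hloc : ∀ p ∈ T, dg M p = dg M' p ∧ b p = b' p := by
    intro p hpT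
    have hpp := hTp p hpT
    obtain ⟨c1, c2, c3, c4⟩ := loc_compare h h' hpp (hD.loc p hpT) (hD'.loc p hpT) hcc hD.ne
    have hne' : cs' 1 ≠ 0 := hD'.ne
    obtain ⟨-, d2, d3, -⟩ := loc_compare h' h hpp (hD'.loc p hpT) (hD.loc p hpT)
      (fun n => (hcc n).symm) hne'
    have hsq : ∀ m : ℕ, p ^ 2 ∣ m → p ∣ m := fun m hm => (dvd_pow_self p two_ne_zero).trans hm
    by_cases a1 : p ∣ M
    · by_cases a2 : p ∣ M'
      · by_cases a3 : p ^ 2 ∣ M
        · by_cases a4 : p ^ 2 ∣ M'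
          · refine ⟨by unfold dg; rw [if_pos a3, if_pos a4], ?_⟩
            rw [h.bad2 p hpp a3, h'.bad2 p hpp a4]
          · exact (d3 a2 a4 a3).elim
        · by_cases a4 : p ^ 2 ∣ M'
          · exact (c3 a1 a3 a4).elim
          · refine ⟨by unfold dg; rw [if_neg a3, if_neg a4, if_pos a1, if_pos a2], c4 a1 a3 a2 a4⟩
      · exact (d2 a2 a1).elim
    · by_cases a2 : p ∣ M'
      · exact (c2 a1 a2).elim
      · have a3 : ¬ p ^ 2 ∣ M := fun h0 => a1 (hsq M h0)
        have a4 : ¬ p ^ 2 ∣ M' := fun h0 => a2 (hsq M' h0)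
        exact ⟨by unfold dg; rw [if_neg a3, if_neg a4, if_neg a1, if_neg a2], c1 a1 a2⟩
  have hMM : M = M' := by
    have e : ∏ p ∈ T, p ^ dg M p = ∏ p ∈ T, p ^ dg M' p :=
      Finset.prod_congr rfl fun p hpT => by rw [(hloc p hpT).1]
    rw [← e] at hKK
    have hpos : 0 < ∏ p ∈ T, p ^ dg M p :=
      Finset.prod_pos fun p hpT => pow_pos (hTp p hpT).pos _
    exact Nat.eq_of_mul_eq_mul_right hpos hKK
  subst hMM
  have hbp : ∀ p : ℕ, p.Prime → b p = b' p := by
    intro p hpp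
    by_cases hpT : p ∈ T
    · exact (hloc p hpT).2
    · refine hp p hpp fun h0 => hpT (hmem p hpp ?_)
      rw [mul_assoc]
      exact Dvd.dvd.mul_right h0 _
  have hball := nf_eq_of_primes h h' hbp
  have hgg : ∀ z, g z = g' z := qe_eq_fun h.qe h'.qe (fun n => by rw [hball n])
  refine ⟨rfl, hgg, hball, ?_⟩
  -- signs
  have hgne : ∃ z, g z ≠ 0 := by
    by_contra hcon
    push Not at hcon
    have := coeff_zero_of_fun pfQEu h.qe hcon 1
    rw [h.one] at this
    norm_num at this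
  obtain ⟨z, hz⟩ := hgne
  have hMpos : (0 : ℤ) < M := by exact_mod_cast h.pos
  have hd : (0 : ℤ) < 0 * 0 - (-1) * (M : ℤ) := by simpa using hMpos
  have e1 := h.al 0 (-1) 1 0 (by ring) z (gm 0 (-1) M 0 • z) (by
      rw [gm_coe_smul hd]
      push_cast
      ring)
  have e2 := h'.al 0 (-1) 1 0 (by ring) z (gm 0 (-1) M 0 • z) (by
      rw [gm_coe_smul hd]
      push_cast
      ring)
  rw [← hgg, ← hgg, e1] at e2
  have hzz : (z : ℂ) ≠ 0 := UpperHalfPlane.ne_zero z
  have hMc : (M : ℂ) ≠ 0 := by exact_mod_cast h.pos.ne'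
  push_cast at e2
  simp only [mul_one, mul_zero, add_zero] at e2
  have hne : (((M : ℂ) * z) ^ 2 / M) * g z ≠ 0 :=
    mul_ne_zero (div_ne_zero (pow_ne_zero 2 (mul_ne_zero hMc hzz)) hMc) hz
  have e3 : (ε : ℂ) * ((((M : ℂ) * z) ^ 2 / M) * g z) =
      (ε' : ℂ) * ((((M : ℂ) * z) ^ 2 / M) * g z) := by linear_combination e2
  have e4 := mul_right_cancel₀ hne e3
  exact_mod_cast e4

end P004N.H65
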