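import Vale.Agent.P004N.H3.Euler
import Vale.Agent.P004N.H503.Sum
import Vale.Agent.P004N.H65.Smo
import Vale.Agent.P004N.H65.Fin

/-!
# P004N.H65: the newform attached to `f ⊗ χ_D`: existence, uniqueness, order of vanishing
-/

open UpperHalfPlane CongruenceSubgroup
open scoped MatrixGroups ModularForm Manifold Real

namespace P004N

open Vale.Agent.P004H.H871 (kr Fd RC kr_rc kr_one_mod kr_mul kr_zero kr_pm kr_one)

/-- `g = ∑ b n q^n` (level `M`, Fricke sign `ε`) is the newform attached to `f ⊗ χ_D`, where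
`f = ∑ a n q^n`: it is a newform and `b p = a p χ_D(p)` for all but finitely many primes `p` -/
def IsTw (a : ℕ → ℤ) (D : ℤ) (M : ℕ) (g : ℍ → ℂ) (b : ℕ → ℝ) (ε : ℝ) : Prop :=
  NF M g b ε ∧ ∃ S : ℕ, S ≠ 0 ∧ ∀ p : ℕ, p.Prime → ¬ p ∣ S → b p = a p * kr D p

/-- existence -/
theorem exists_isTw {N : ℕ} {f : ℍ → ℂ} {a : ℕ → ℤ} (hf : EF N f a) {D : ℤ} (hD : Fd D) :
    ∃ (M : ℕ) (g : ℍ → ℂ) (b : ℕ → ℝ) (ε : ℝ), IsTw a D M g b ε ∧ M ∣ N * D.natAbs ^ 2 := by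
  obtain ⟨M, g, b, ε, h1, h2, h3, h4, -⟩ := pfNewP N f a hf D hD
  refine ⟨M, g, b, ε, ⟨h1, N * D.natAbs, Nat.mul_ne_zero hf.pos.ne'
    (Int.natAbs_ne_zero.2 hD.ne), ?_⟩, h4⟩
  intro p hp hpS
  exact h3 p ((Nat.Prime.coprime_iff_not_dvd hp).2 hpS)

/-- uniqueness -/
theorem IsTw.unique {a : ℕ → ℤ} {D : ℤ} {M M' : ℕ} {g g' : ℍ → ℂ} {b b' : ℕ → ℝ} {ε ε' : ℝ}
    (h : IsTw a D M g b ε) (h' : IsTw a D M' g' b' ε') :
    M = M' ∧ g = g' ∧ b = b' ∧ ε = ε' := by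
  obtain ⟨h1, S, hS, h2⟩ := h
  obtain ⟨h1', S', hS', h2'⟩ := h'
  obtain ⟨e1, e2, e3, e4⟩ := H65.smo h1 h1' (S := S * S') (mul_ne_zero hS hS') (by
    intro p hp hpS
    rw [h2 p hp (fun h0 => hpS (Dvd.dvd.mul_right h0 _)),
      h2' p hp (fun h0 => hpS (Dvd.dvd.mul_left h0 _))])
  exact ⟨e1, funext e2, funext e3, e4⟩

/-- the coefficients of the attached newform away from `N D`, and the level -/
theorem IsTw.eq {N : ℕ} {f : ℍ → ℂ} {a : ℕ → ℤ} (hf : EF N f a) {D : ℤ} (hD : Fd D) {M : ℕ}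
    {g : ℍ → ℂ} {b : ℕ → ℝ} {ε : ℝ} (h : IsTw a D M g b ε) :
    M ∣ N * D.natAbs ^ 2 ∧ (∀ p : ℕ, p.Prime → p ∣ M → p ∣ N * D.natAbs) ∧
      ∀ n : ℕ, n.Coprime (N * D.natAbs) → b n = a n * kr D n := by
  obtain ⟨M', g', b', ε', h1, h2, h3, h4, -⟩ := pfNewP N f a hf D hD
  have h' : IsTw a D M' g' b' ε' := ⟨h1, N * D.natAbs, Nat.mul_ne_zero hf.pos.ne'
    (Int.natAbs_ne_zero.2 hD.ne), fun p hp hpS =>
      h3 p ((Nat.Prime.coprime_iff_not_dvd hp).2 hpS)⟩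
  obtain ⟨rfl, rfl, rfl, rfl⟩ := h.unique h'
  exact ⟨h4, h2, h3⟩

/-- the coefficients of a newform form an Euler product `LDr` -/
theorem NF.ldr {M : ℕ} {g : ℍ → ℂ} {b : ℕ → ℝ} {ε : ℝ} (h : NF M g b ε) : LDr b := by
  have h1 := h.hr.ldr (fun p hp => h.hr.triv (pfPowN M g b ε h) hp) (n := 1)
    (Or.inl ⟨by norm_num, squarefree_one⟩)
  have e : (fun k : ℕ => b k * ((kr 1 (k : ℤ) : ℤ) : ℝ)) = b := by
    funext k
    rw [kr_one_mod (by norm_num)]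
    simp
  rwa [e] at h1

theorem NF.lt {M : ℕ} {g : ℍ → ℂ} {b : ℕ → ℝ} {ε : ℝ} (h : NF M g b ε) {p : ℕ} (hp : p.Prime) :
    |b p| < p + 1 := h.hr.triv (pfPowN M g b ε h) hp

/-- **order of vanishing**: if `L` is the entire continuation of `∑ b n n^{-s}` for the newform
attached to `f ⊗ χ_D` then the Dirichlet series `∑_{(n, B) = 1} a n χ_D(n) n^{-s}`, `B` any
multiple of `N D`, has an entire continuation with the same order at `1` -/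
theorem IsTw.order {N : ℕ} {f : ℍ → ℂ} {a : ℕ → ℤ} (hf : EF N f a) {D : ℤ} (hD : Fd D) {M : ℕ}
    {g : ℍ → ℂ} {b : ℕ → ℝ} {ε : ℝ} (h : IsTw a D M g b ε) {L : ℂ → ℂ} (hL : IsLr b L) {B : ℕ}
    (hB : B ≠ 0) (hNB : N * D.natAbs ∣ B) :
    ∃ L' : ℂ → ℂ, IsLr (fun n => if n.Coprime B then (a n : ℝ) * kr D n else 0) L' ∧
      analyticOrderAt L' 1 = analyticOrderAt L 1 := by
  have h1 := T8.remove_all (A := b) h.1.ldr (H503.Sum.sm_of_ldr h.1.ldr) hB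
    (fun p hp _ => h.1.lt hp) hL
  have e : T8.inc B b = fun n => if n.Coprime B then (a n : ℝ) * kr D n else 0 := by
    funext n
    unfold T8.inc
    split_ifs with hn
    · exact (h.eq hf hD).2.2 n (hn.coprime_dvd_right hNB)
    · rfl
  rwa [e] at h1

end P004N
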