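import Vale.Agent.P004N.H65.TwNF
import Vale.Agent.P004N.H65.Smo

/-!
# P004N.H65: the Fricke relation; uniqueness of the attached newform
-/

open UpperHalfPlane CongruenceSubgroup
open scoped MatrixGroups ModularForm Manifold Real

namespace P004N

/-- the Fricke relation in the form `g(-1/(Mz)) = ε M z² g(z)` -/
theorem alw_iff_fricke {M : ℕ} {g : ℍ → ℂ} {ε : ℝ} (hM : 0 < M) (hg : S2 M g) :
    ALw M M g ε ↔ ∀ z z' : ℍ, (z' : ℂ) = -1 / ((M : ℂ) * z) → g z' = ε * M * (z : ℂ) ^ 2 * g z := by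
  have hMc : (M : ℂ) ≠ 0 := by exact_mod_cast hM.ne'
  constructor
  · intro h z z' hz
    have h1 := h 0 (-1) 1 0 (by ring) z z' (by
      rw [hz]
      push_cast
      ring)
    rw [h1]
    push_cast
    field_simp
    ring
  · intro h
    refine H65.alw_of_fricke hM hg fun τ τ' hτ => ?_
    rw [h τ τ' hτ]
    ring

/-- uniqueness of the newform attached to `∑ a n χ_D(n) q^n` -/
theorem att_unique {N : ℕ} {a : ℕ → ℤ} {D : ℤ} (hN : N ≠ 0) (hD : D ≠ 0) {M M' : ℕ}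
    {g g' : ℍ → ℂ} {b b' : ℕ → ℝ} {ε ε' : ℝ} (h : NF M g b ε) (h' : NF M' g' b' ε')
    (hb : ∀ n : ℕ, n.Coprime (2 * N * D.natAbs) → b n = a n * jacobiSym D n)
    (hb' : ∀ n : ℕ, n.Coprime (2 * N * D.natAbs) → b' n = a n * jacobiSym D n) :
    M = M' ∧ g = g' ∧ b = b' ∧ ε = ε' := by
  obtain ⟨e1, e2, e3, e4⟩ := H65.smo h h' (S := 2 * N * D.natAbs)
    (mul_ne_zero (mul_ne_zero two_ne_zero hN) (Int.natAbs_ne_zero.2 hD)) (by
    intro p hp hpS
    have hc := (Nat.Prime.coprime_iff_not_dvd hp).2 hpS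
    rw [hb p hc, hb' p hc])
  exact ⟨e1, funext e2, funext e3, e4⟩

end P004N
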