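import Vale.Agent.P004N.H880.FE1
import Vale.Agent.P004N.H503.Twist
import Vale.Agent.P004N.H65.NewD

/-!
# P004N.H65: the twist of a newform by a discriminant prime to the level is a newform
-/

open UpperHalfPlane hiding I
open CongruenceSubgroup
open scoped MatrixGroups ModularForm Manifold Real

namespace P004N.H65

open Vale.Agent.P004H.H871 (RC TS Fd kr kr_rc kr_mul kr_zero kr_one kr_pm ne_zero_of_im)
open P004N.H503 (gm gm_coe_smul slash_gm inv0_iff denom_ne)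
open P004N.H880 (ext ext_of twist_hasSum_r TS_fe)

/-- the Fricke relation for one matrix implies it for all -/
theorem alw_of_fricke {K : ℕ} {G : ℍ → ℂ} {ε : ℝ} (hK : 0 < K) (hG : S2 K G)
    (h : ∀ τ τ' : ℍ, (τ' : ℂ) = -1 / ((K : ℂ) * τ) → G τ' = ε * ((K : ℂ) * (τ : ℂ) ^ 2) * G τ) :
    ALw K K G ε := by
  intro x y z w hdet τ τ' hτ
  have hKz : (K : ℤ) ≠ 0 := by exact_mod_cast hK.ne'
  have hKc : (K : ℂ) ≠ 0 := by exact_mod_cast hK.ne'
  have hτ0 : (τ : ℂ) ≠ 0 := ne_zero_of_im τ.2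
  have hdet1 : K * x * w - y * z = 1 := by
    apply mul_left_cancel₀ hKz
    linear_combination hdet
  have him : 0 < (-1 / ((K : ℂ) * τ)).im := by
    have h1 : -1 / ((K : ℂ) * τ) = ((1 / (K : ℝ) : ℝ) : ℂ) * (-(τ : ℂ)⁻¹) := by
      push_cast
      field_simp
    rw [h1, Complex.im_ofReal_mul, Complex.neg_im, Complex.inv_im]
    have h2 : 0 < Complex.normSq (τ : ℂ) := Complex.normSq_pos.2 hτ0
    have h3 : 0 < (τ : ℂ).im / Complex.normSq (τ : ℂ) := div_pos τ.2 h2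
    have h4 : -(-(τ : ℂ).im / Complex.normSq (τ : ℂ)) = (τ : ℂ).im / Complex.normSq (τ : ℂ) := by
      ring
    rw [h4]
    have : (0 : ℝ) < K := by exact_mod_cast hK
    positivity
  set t : ℍ := ⟨-1 / ((K : ℂ) * τ), him⟩ with ht
  have htc : (t : ℂ) = -1 / ((K : ℂ) * τ) := rfl
  have h1 := h τ t htc
  have hd : (-y) * z - x * (-(K * w)) = 1 := by linear_combination hdet1
  have hd' : 0 < (-y) * z - x * (-(K * w)) := by rw [hd]; exact one_pos
  have hinv := ((inv0_iff K G).2 hG.slash) (-y) x (-(K * w)) z hd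
    (by exact Dvd.intro (-w) (by ring))
  have h2 := congrFun hinv t
  rw [slash_gm hd', hd] at h2
  have hne : ((-(K * w) : ℤ) : ℂ) * t + (z : ℂ) ≠ 0 := by
    apply denom_ne
    rintro ⟨h3, h4⟩
    rw [h3, h4] at hd
    simp at hd
  have hzw : (K : ℂ) * z * τ + K * w ≠ 0 := by
    intro h3
    apply hne
    have h5 : (z : ℂ) * τ + w = 0 := by
      apply mul_left_cancel₀ hKc
      linear_combination h3
    have h6 : ((-(K * w) : ℤ) : ℂ) * t + (z : ℂ) = ((z : ℂ) * τ + w) / τ := by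
      rw [htc]
      push_cast
      field_simp
      ring
    rw [h6, h5, zero_div]
  have e : gm (-y) x (-(K * w)) z • t = τ' := by
    apply UpperHalfPlane.ext
    rw [gm_coe_smul hd', hτ, htc]
    have hne' := hne
    rw [htc] at hne'
    rw [div_eq_div_iff hne' hzw]
    push_cast
    field_simp
    ring
  rw [e] at h2
  have h3 : G τ' = G t * (((-(K * w) : ℤ) : ℂ) * t + (z : ℂ)) ^ 2 := by
    rw [← h2, Int.cast_one, mul_one]
    field_simp
  rw [h3, h1, htc]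
  push_cast
  field_simp
  ring


/-- the twisted form: `G = g ⊗ c` satisfies the Fricke relation of level `M m²` -/
theorem twist_fricke {M m : ℕ} [NeZero m] {g G : ℍ → ℂ} {b : ℕ → ℝ} {ε : ℝ} {c : ℤ → ℤ}
    (hqe : QE g (fun n => (b n : ℂ))) (hAL : ALw M M g ε) (hM : 0 < M) (hc : RC m c)
    (hMm : m.Coprime M) (hG : QE G (fun n => ((b n * c n : ℝ) : ℂ))) (τ τ' : ℍ)
    (hτ : (τ' : ℂ) = -1 / (((M * m ^ 2 : ℕ) : ℂ) * τ)) :
    G τ' = ((ε * c (-M) : ℝ) : ℂ) * (((M * m ^ 2 : ℕ) : ℂ) * (τ : ℂ) ^ 2) * G τ := by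
  obtain ⟨g0, hg0, hg2⟩ := hc.gauss
  have key : ∀ z : ℍ, G z = g0⁻¹ * TS m c (ext g) z := by
    intro z
    have h1 := twist_hasSum_r hqe hg0 hg2 z.2
    refine (hG z).unique (h1.congr_fun fun n => ?_)
    push_cast
    congr 2
    ring
  have h := TS_fe (ε := ε) (f := g) (N := M) (Q := M) (g := 1) hAL (mul_one M).symm hM hc hMm
    (one_dvd m) τ.2
  rw [key, key]
  have e : (τ' : ℂ) = -1 / ((M : ℂ) * (m : ℂ) ^ 2 * τ) := by
    rw [hτ]; push_cast; ring
  rw [e, h]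
  push_cast
  ring

/-- **the twist of a newform of level `M` by a discriminant prime to `M` is a newform of level
`M D²`** -/
theorem twNF {M : ℕ} {g : ℍ → ℂ} {b : ℕ → ℝ} {ε : ℝ} (h : NF M g b ε) {D : ℤ} (hD : Fd D)
    (hMD : IsCoprime (M : ℤ) D) :
    ∃ G : ℍ → ℂ, NF (M * D.natAbs ^ 2) G (fun n => b n * kr D n)
      (ε * (kr D (-(M : ℤ)) : ℤ)) := by
  have hD0 : D ≠ 0 := hD.ne
  have hm : NeZero D.natAbs := ⟨Int.natAbs_ne_zero.2 hD0⟩
  have hmpos : 0 < D.natAbs := Int.natAbs_pos.2 hD0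
  have hc := kr_rc hD
  have hQm : D.natAbs.Coprime M := by
    have h1 := Int.isCoprime_iff_gcd_eq_one.1 hMD
    rw [Int.gcd_comm] at h1
    exact h1
  set χ := rcChar hc with hχ
  have hsq : ∀ x : ZMod D.natAbs, IsUnit x → χ x ^ 2 = 1 := by
    intro x hx
    have h1 : IsUnit (χ x) := hx.map χ
    rcases (rcChar_quad hc) x with h | h | h
    · rw [← hχ] at h
      rw [h] at h1
      simp at h1
    · rw [← hχ] at h
      rw [h]; norm_num
    · rw [← hχ] at h
      rw [h]; norm_num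
  obtain ⟨G, hG, hGq⟩ := P004N.H503.pfTwist M D.natAbs (fun x => ((χ x : ℤ) : ℂ)) g
    (fun n => (b n : ℂ)) h.pos hmpos (by
      intro u x
      have h1 := hsq u u.isUnit
      have h2 : χ ((u : ZMod D.natAbs) ^ 2 * x) = χ x := by
        rw [map_mul, map_pow, h1, one_mul]
      rw [h2]) h.s2 h.qe
  have hGq' : QE G (fun n => ((b n * kr D n : ℝ) : ℂ)) := by
    refine qe_congr hGq ?_
    intro n
    rw [hχ, rcChar_nat]
    push_cast
    ring
  have hK : 0 < M * D.natAbs ^ 2 := Nat.mul_pos h.pos (pow_pos hmpos 2)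
  have hkmul : ∀ m n : ℕ, kr D ((m * n : ℕ) : ℤ) = kr D m * kr D n := by
    intro m n
    rw [Nat.cast_mul]
    exact kr_mul hD _ _
  have hcop : ∀ p : ℕ, p.Prime → ¬ p ∣ D.natAbs → kr D p = 1 ∨ kr D p = -1 := by
    intro p hp hpD
    apply kr_pm hD
    rw [Int.isCoprime_iff_gcd_eq_one]
    exact ((Nat.Prime.coprime_iff_not_dvd hp).2 hpD).symm
  have hz : ∀ p : ℕ, p.Prime → p ∣ D.natAbs → kr D p = 0 := by
    intro p hp hpD
    apply kr_zero hD
    rw [Int.isCoprime_iff_gcd_eq_one]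
    intro h1
    have h2 : p ∣ Int.gcd D p := Nat.dvd_gcd hpD (by simp)
    rw [h1] at h2
    exact hp.one_lt.ne' (Nat.dvd_one.1 h2)
  refine ⟨G, ⟨hK, hG, hGq', ?_, ?_, ?_, ?_, ?_, ?_, ?_, ?_⟩⟩
  · simp [h.zero]
  · have := kr_one hD
    simp [h.one, this]
  · intro p hp hpK n
    have hpM : ¬ p ∣ M := fun h' => hpK (Dvd.dvd.mul_right h' _)
    have hpD : ¬ p ∣ D.natAbs := fun h' => hpK (Dvd.dvd.mul_left (Dvd.dvd.pow h' two_ne_zero) _)
    have h1 := h.good p hp hpM n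
    have h2 : ((kr D p : ℤ) : ℝ) * ((kr D p : ℤ) : ℝ) = 1 := by
      rcases hcop p hp hpD with h3 | h3 <;> rw [h3] <;> norm_num
    have h3 := hkmul p n
    rw [h3]
    by_cases hpn : p ∣ n
    · obtain ⟨k, rfl⟩ := hpn
      rw [if_pos (dvd_mul_right p k), Nat.mul_div_cancel_left _ hp.pos] at h1 ⊢
      rw [hkmul p k]
      push_cast
      linear_combination ((kr D p : ℤ) : ℝ) ^ 2 * ((kr D k : ℤ) : ℝ) * h1 -
        (p : ℝ) * b k * ((kr D k : ℤ) : ℝ) * h2
    · rw [if_neg hpn] at h1 ⊢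
      push_cast
      linear_combination ((kr D p : ℤ) : ℝ) * ((kr D n : ℤ) : ℝ) * h1
  · intro p hp hpK n
    rw [hkmul p n]
    push_cast
    by_cases hpD : p ∣ D.natAbs
    · rw [hz p hp hpD]
      simp
    · have hpM : p ∣ M := by
        rcases (Nat.Prime.dvd_mul hp).1 hpK with h' | h'
        · exact h'
        · exact absurd (hp.dvd_of_dvd_pow h') hpD
      rw [h.bad p hp hpM n]
      ring
  · intro p hp hpK hpK2
    have hpD : ¬ p ∣ D.natAbs := fun h' =>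
      hpK2 (Dvd.dvd.mul_left (pow_dvd_pow_of_dvd h' 2) _)
    have hpM : p ∣ M := by
      rcases (Nat.Prime.dvd_mul hp).1 hpK with h' | h'
      · exact h'
      · exact absurd (hp.dvd_of_dvd_pow h') hpD
    have hpM2 : ¬ p ^ 2 ∣ M := fun h' => hpK2 (Dvd.dvd.mul_right h' _)
    have h1 := h.bad1 p hp hpM hpM2
    rw [mul_pow, h1, one_mul]
    rcases hcop p hp hpD with h3 | h3 <;> rw [h3] <;> norm_num
  · intro p hp hpK2
    by_cases hpD : p ∣ D.natAbs
    · rw [hz p hp hpD]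
      simp
    · have hcop2 : (p ^ 2).Coprime (D.natAbs ^ 2) :=
        Nat.Coprime.pow 2 2 ((Nat.Prime.coprime_iff_not_dvd hp).2 hpD)
      rw [h.bad2 p hp (hcop2.dvd_of_dvd_mul_right hpK2), zero_mul]
  · have hk : ((kr D (-(M : ℤ)) : ℤ) : ℝ) = 1 ∨ ((kr D (-(M : ℤ)) : ℤ) : ℝ) = -1 := by
      rcases kr_pm hD (n := -(M : ℤ)) hMD.symm.neg_right with h1 | h1 <;> rw [h1] <;> norm_num
    rcases h.sgn with h1 | h1 <;> rcases hk with h2 | h2 <;> rw [h1, h2] <;> norm_num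
  · exact alw_of_fricke hK hG (fun τ τ' hτ =>
      twist_fricke h.qe h.al h.pos hc hQm hGq' τ τ' hτ)

end P004N.H65
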